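import Crest.Agent.R187.Tac

set_option autoImplicit false
set_option Elab.async false
set_option maxRecDepth 100000

namespace Crest.Agent.R187.Num
open Crest.Agent.R187.Alg Crest.Agent.R187.Tac

noncomputable def yE0 : List Nat := by r187_tab 0 0
theorem yE0_0 : eqR yE0 (yEc 0) 0 2 = true := by decide +kernel
theorem yE0_len : Nat.beq (List.length yE0) 2 = true := by decide +kernel
noncomputable def yO0 : List Nat := by r187_tab 1 0
theorem yO0_0 : eqR yO0 (yOc 0) 0 2 = true := by decide +kernel
theorem yO0_len : Nat.beq (List.length yO0) 2 = true := by decide +kernel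
noncomputable def xE0 : List Nat := by r187_x1 2 0 yE0
theorem xE0_0 : eqR xE0 (x1 0 yE0 (zEc 0)) 0 2 = true := by decide +kernel
theorem xE0_len : Nat.beq (List.length xE0) 2 = true := by decide +kernel
noncomputable def xO0 : List Nat := by r187_x1 3 0 yO0
theorem xO0_0 : eqR xO0 (x1 0 yO0 (zOc 0)) 0 2 = true := by decide +kernel
theorem xO0_len : Nat.beq (List.length xO0) 2 = true := by decide +kernel
noncomputable def wE0 : List Nat := by r187_tab 4 0
theorem wE0_0 : eqR wE0 (wEc 0) 0 2 = true := by decide +kernel
theorem wE0_len : Nat.beq (List.length wE0) 2 = true := by decide +kernel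
noncomputable def wO0 : List Nat := by r187_tab 5 0
theorem wO0_0 : eqR wO0 (wOc 0) 0 2 = true := by decide +kernel
theorem wO0_len : Nat.beq (List.length wO0) 2 = true := by decide +kernel

end Crest.Agent.R187.Num
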