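import Crest.Agent.R187.Tac

set_option autoImplicit false
set_option Elab.async false
set_option maxRecDepth 100000

namespace Crest.Agent.R187.Num
open Crest.Agent.R187.Alg Crest.Agent.R187.Tac

noncomputable def yE1 : List Nat := by r187_tab 0 1
theorem yE1_0 : eqR yE1 (yEc 1) 0 2 = true := by decide +kernel
theorem yE1_len : Nat.beq (List.length yE1) 2 = true := by decide +kernel
noncomputable def yO1 : List Nat := by r187_tab 1 1
theorem yO1_0 : eqR yO1 (yOc 1) 0 2 = true := by decide +kernel
theorem yO1_len : Nat.beq (List.length yO1) 2 = true := by decide +kernel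
noncomputable def xE1 : List Nat := by r187_x1 2 1 yE1
theorem xE1_0 : eqR xE1 (x1 1 yE1 (zEc 1)) 0 3 = true := by decide +kernel
theorem xE1_len : Nat.beq (List.length xE1) 3 = true := by decide +kernel
noncomputable def xO1 : List Nat := by r187_x1 3 1 yO1
theorem xO1_0 : eqR xO1 (x1 1 yO1 (zOc 1)) 0 3 = true := by decide +kernel
theorem xO1_len : Nat.beq (List.length xO1) 3 = true := by decide +kernel
noncomputable def wE1 : List Nat := by r187_tab 4 1
theorem wE1_0 : eqR wE1 (wEc 1) 0 3 = true := by decide +kernel
theorem wE1_len : Nat.beq (List.length wE1) 3 = true := by decide +kernel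
noncomputable def wO1 : List Nat := by r187_tab 5 1
theorem wO1_0 : eqR wO1 (wOc 1) 0 3 = true := by decide +kernel
theorem wO1_len : Nat.beq (List.length wO1) 3 = true := by decide +kernel

end Crest.Agent.R187.Num
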