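import Crest.Agent.R187.C.A8

set_option autoImplicit false
set_option Elab.async false
set_option maxRecDepth 100000

namespace Crest.Agent.R187.Num
open Crest.Agent.R187.Alg Crest.Agent.R187.Tac

noncomputable def yE10 : List Nat := by r187_tab 0 10
theorem yE10_0 : eqR yE10 (yEc 10) 0 2 = true := by decide +kernel
theorem yE10_len : Nat.beq (List.length yE10) 2 = true := by decide +kernel
noncomputable def yO10 : List Nat := by r187_tab 1 10
theorem yO10_0 : eqR yO10 (yOc 10) 0 2 = true := by decide +kernel
theorem yO10_len : Nat.beq (List.length yO10) 2 = true := by decide +kernel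
noncomputable def xE10 : List Nat := by r187_x1 2 10 yE10
theorem xE10_0 : eqR xE10 (x1 10 yE10 (zEc 10)) 0 12 = true := by decide +kernel
theorem xE10_len : Nat.beq (List.length xE10) 12 = true := by decide +kernel
noncomputable def xO10 : List Nat := by r187_x1 3 10 yO10
theorem xO10_0 : eqR xO10 (x1 10 yO10 (zOc 10)) 0 12 = true := by decide +kernel
theorem xO10_len : Nat.beq (List.length xO10) 12 = true := by decide +kernel
noncomputable def wE10 : List Nat := by r187_tab 4 10
theorem wE10_0 : eqR wE10 (wEc 10) 0 14 = true := by decide +kernel
theorem wE10_len : Nat.beq (List.length wE10) 14 = true := by decide +kernel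
noncomputable def wO10 : List Nat := by r187_tab 5 10
theorem wO10_0 : eqR wO10 (wOc 10) 0 14 = true := by decide +kernel
theorem wO10_len : Nat.beq (List.length wO10) 14 = true := by decide +kernel

end Crest.Agent.R187.Num
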