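import Crest.Agent.R187.C.A9

set_option autoImplicit false
set_option Elab.async false
set_option maxRecDepth 100000

namespace Crest.Agent.R187.Num
open Crest.Agent.R187.Alg Crest.Agent.R187.Tac

noncomputable def yE11 : List Nat := by r187_tab 0 11
theorem yE11_0 : eqR yE11 (yEc 11) 0 2 = true := by decide +kernel
theorem yE11_len : Nat.beq (List.length yE11) 2 = true := by decide +kernel
noncomputable def yO11 : List Nat := by r187_tab 1 11
theorem yO11_0 : eqR yO11 (yOc 11) 0 2 = true := by decide +kernel
theorem yO11_len : Nat.beq (List.length yO11) 2 = true := by decide +kernel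
noncomputable def xE11 : List Nat := by r187_x1 2 11 yE11
theorem xE11_0 : eqR xE11 (x1 11 yE11 (zEc 11)) 0 13 = true := by decide +kernel
theorem xE11_len : Nat.beq (List.length xE11) 13 = true := by decide +kernel
noncomputable def xO11 : List Nat := by r187_x1 3 11 yO11
theorem xO11_0 : eqR xO11 (x1 11 yO11 (zOc 11)) 0 13 = true := by decide +kernel
theorem xO11_len : Nat.beq (List.length xO11) 13 = true := by decide +kernel
noncomputable def wE11 : List Nat := by r187_tab 4 11
theorem wE11_0 : eqR wE11 (wEc 11) 0 15 = true := by decide +kernel
theorem wE11_len : Nat.beq (List.length wE11) 15 = true := by decide +kernel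
noncomputable def wO11 : List Nat := by r187_tab 5 11
theorem wO11_0 : eqR wO11 (wOc 11) 0 15 = true := by decide +kernel
theorem wO11_len : Nat.beq (List.length wO11) 15 = true := by decide +kernel

end Crest.Agent.R187.Num
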