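import Crest.Agent.R187.C.A10

set_option autoImplicit false
set_option Elab.async false
set_option maxRecDepth 100000

namespace Crest.Agent.R187.Num
open Crest.Agent.R187.Alg Crest.Agent.R187.Tac

noncomputable def yE12 : List Nat := by r187_tab 0 12
theorem yE12_0 : eqR yE12 (yEc 12) 0 2 = true := by decide +kernel
theorem yE12_len : Nat.beq (List.length yE12) 2 = true := by decide +kernel
noncomputable def yO12 : List Nat := by r187_tab 1 12
theorem yO12_0 : eqR yO12 (yOc 12) 0 2 = true := by decide +kernel
theorem yO12_len : Nat.beq (List.length yO12) 2 = true := by decide +kernel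
noncomputable def xE12 : List Nat := by r187_x1 2 12 yE12
theorem xE12_0 : eqR xE12 (x1 12 yE12 (zEc 12)) 0 14 = true := by decide +kernel
theorem xE12_len : Nat.beq (List.length xE12) 14 = true := by decide +kernel
noncomputable def xO12 : List Nat := by r187_x1 3 12 yO12
theorem xO12_0 : eqR xO12 (x1 12 yO12 (zOc 12)) 0 14 = true := by decide +kernel
theorem xO12_len : Nat.beq (List.length xO12) 14 = true := by decide +kernel
noncomputable def wE12 : List Nat := by r187_tab 4 12
theorem wE12_0 : eqR wE12 (wEc 12) 0 16 = true := by decide +kernel
theorem wE12_len : Nat.beq (List.length wE12) 16 = true := by decide +kernel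
noncomputable def wO12 : List Nat := by r187_tab 5 12
theorem wO12_0 : eqR wO12 (wOc 12) 0 16 = true := by decide +kernel
theorem wO12_len : Nat.beq (List.length wO12) 16 = true := by decide +kernel

end Crest.Agent.R187.Num
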