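import Crest.Agent.R187.C.A11

set_option autoImplicit false
set_option Elab.async false
set_option maxRecDepth 100000

namespace Crest.Agent.R187.Num
open Crest.Agent.R187.Alg Crest.Agent.R187.Tac

noncomputable def yE13 : List Nat := by r187_tab 0 13
theorem yE13_0 : eqR yE13 (yEc 13) 0 2 = true := by decide +kernel
theorem yE13_len : Nat.beq (List.length yE13) 2 = true := by decide +kernel
noncomputable def yO13 : List Nat := by r187_tab 1 13
theorem yO13_0 : eqR yO13 (yOc 13) 0 2 = true := by decide +kernel
theorem yO13_len : Nat.beq (List.length yO13) 2 = true := by decide +kernel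
noncomputable def xE13 : List Nat := by r187_x1 2 13 yE13
theorem xE13_0 : eqR xE13 (x1 13 yE13 (zEc 13)) 0 15 = true := by decide +kernel
theorem xE13_len : Nat.beq (List.length xE13) 15 = true := by decide +kernel
noncomputable def xO13 : List Nat := by r187_x1 3 13 yO13
theorem xO13_0 : eqR xO13 (x1 13 yO13 (zOc 13)) 0 15 = true := by decide +kernel
theorem xO13_len : Nat.beq (List.length xO13) 15 = true := by decide +kernel
noncomputable def wE13 : List Nat := by r187_tab 4 13
theorem wE13_0 : eqR wE13 (wEc 13) 0 17 = true := by decide +kernel
theorem wE13_len : Nat.beq (List.length wE13) 17 = true := by decide +kernel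
noncomputable def wO13 : List Nat := by r187_tab 5 13
theorem wO13_0 : eqR wO13 (wOc 13) 0 17 = true := by decide +kernel
theorem wO13_len : Nat.beq (List.length wO13) 17 = true := by decide +kernel

end Crest.Agent.R187.Num
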