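import Crest.Agent.R187.C.A12

set_option autoImplicit false
set_option Elab.async false
set_option maxRecDepth 100000

namespace Crest.Agent.R187.Num
open Crest.Agent.R187.Alg Crest.Agent.R187.Tac

noncomputable def yE14 : List Nat := by r187_tab 0 14
theorem yE14_0 : eqR yE14 (yEc 14) 0 2 = true := by decide +kernel
theorem yE14_len : Nat.beq (List.length yE14) 2 = true := by decide +kernel
noncomputable def yO14 : List Nat := by r187_tab 1 14
theorem yO14_0 : eqR yO14 (yOc 14) 0 2 = true := by decide +kernel
theorem yO14_len : Nat.beq (List.length yO14) 2 = true := by decide +kernel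
noncomputable def xE14 : List Nat := by r187_x1 2 14 yE14
theorem xE14_0 : eqR xE14 (x1 14 yE14 (zEc 14)) 0 16 = true := by decide +kernel
theorem xE14_len : Nat.beq (List.length xE14) 16 = true := by decide +kernel
noncomputable def xO14 : List Nat := by r187_x1 3 14 yO14
theorem xO14_0 : eqR xO14 (x1 14 yO14 (zOc 14)) 0 16 = true := by decide +kernel
theorem xO14_len : Nat.beq (List.length xO14) 16 = true := by decide +kernel
noncomputable def wE14 : List Nat := by r187_tab 4 14
theorem wE14_0 : eqR wE14 (wEc 14) 0 18 = true := by decide +kernel
theorem wE14_len : Nat.beq (List.length wE14) 18 = true := by decide +kernel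
noncomputable def wO14 : List Nat := by r187_tab 5 14
theorem wO14_0 : eqR wO14 (wOc 14) 0 18 = true := by decide +kernel
theorem wO14_len : Nat.beq (List.length wO14) 18 = true := by decide +kernel

end Crest.Agent.R187.Num
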