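import Crest.Agent.R187.C.A13

set_option autoImplicit false
set_option Elab.async false
set_option maxRecDepth 100000

namespace Crest.Agent.R187.Num
open Crest.Agent.R187.Alg Crest.Agent.R187.Tac

noncomputable def yE15 : List Nat := by r187_tab 0 15
theorem yE15_0 : eqR yE15 (yEc 15) 0 2 = true := by decide +kernel
theorem yE15_len : Nat.beq (List.length yE15) 2 = true := by decide +kernel
noncomputable def yO15 : List Nat := by r187_tab 1 15
theorem yO15_0 : eqR yO15 (yOc 15) 0 2 = true := by decide +kernel
theorem yO15_len : Nat.beq (List.length yO15) 2 = true := by decide +kernel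
noncomputable def xE15 : List Nat := by r187_x1 2 15 yE15
theorem xE15_0 : eqR xE15 (x1 15 yE15 (zEc 15)) 0 17 = true := by decide +kernel
theorem xE15_len : Nat.beq (List.length xE15) 17 = true := by decide +kernel
noncomputable def xO15 : List Nat := by r187_x1 3 15 yO15
theorem xO15_0 : eqR xO15 (x1 15 yO15 (zOc 15)) 0 17 = true := by decide +kernel
theorem xO15_len : Nat.beq (List.length xO15) 17 = true := by decide +kernel
noncomputable def wE15 : List Nat := by r187_tab 4 15
theorem wE15_0 : eqR wE15 (wEc 15) 0 20 = true := by decide +kernel
theorem wE15_len : Nat.beq (List.length wE15) 20 = true := by decide +kernel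
noncomputable def wO15 : List Nat := by r187_tab 5 15
theorem wO15_0 : eqR wO15 (wOc 15) 0 20 = true := by decide +kernel
theorem wO15_len : Nat.beq (List.length wO15) 20 = true := by decide +kernel

end Crest.Agent.R187.Num
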