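import Crest.Agent.R187.C.A14

set_option autoImplicit false
set_option Elab.async false
set_option maxRecDepth 100000

namespace Crest.Agent.R187.Num
open Crest.Agent.R187.Alg Crest.Agent.R187.Tac

noncomputable def yE16 : List Nat := by r187_tab 0 16
theorem yE16_0 : eqR yE16 (yEc 16) 0 2 = true := by decide +kernel
theorem yE16_len : Nat.beq (List.length yE16) 2 = true := by decide +kernel
noncomputable def yO16 : List Nat := by r187_tab 1 16
theorem yO16_0 : eqR yO16 (yOc 16) 0 2 = true := by decide +kernel
theorem yO16_len : Nat.beq (List.length yO16) 2 = true := by decide +kernel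
noncomputable def xE16 : List Nat := by r187_x1 2 16 yE16
theorem xE16_0 : eqR xE16 (x1 16 yE16 (zEc 16)) 0 18 = true := by decide +kernel
theorem xE16_len : Nat.beq (List.length xE16) 18 = true := by decide +kernel
noncomputable def xO16 : List Nat := by r187_x1 3 16 yO16
theorem xO16_0 : eqR xO16 (x1 16 yO16 (zOc 16)) 0 18 = true := by decide +kernel
theorem xO16_len : Nat.beq (List.length xO16) 18 = true := by decide +kernel
noncomputable def wE16 : List Nat := by r187_tab 4 16
theorem wE16_0 : eqR wE16 (wEc 16) 0 21 = true := by decide +kernel
theorem wE16_len : Nat.beq (List.length wE16) 21 = true := by decide +kernel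
noncomputable def wO16 : List Nat := by r187_tab 5 16
theorem wO16_0 : eqR wO16 (wOc 16) 0 21 = true := by decide +kernel
theorem wO16_len : Nat.beq (List.length wO16) 21 = true := by decide +kernel

end Crest.Agent.R187.Num
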