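import Crest.Agent.R187.C.A15

set_option autoImplicit false
set_option Elab.async false
set_option maxRecDepth 100000

namespace Crest.Agent.R187.Num
open Crest.Agent.R187.Alg Crest.Agent.R187.Tac

noncomputable def yE17 : List Nat := by r187_tab 0 17
theorem yE17_0 : eqR yE17 (yEc 17) 0 2 = true := by decide +kernel
theorem yE17_len : Nat.beq (List.length yE17) 2 = true := by decide +kernel
noncomputable def yO17 : List Nat := by r187_tab 1 17
theorem yO17_0 : eqR yO17 (yOc 17) 0 2 = true := by decide +kernel
theorem yO17_len : Nat.beq (List.length yO17) 2 = true := by decide +kernel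
noncomputable def xE17 : List Nat := by r187_x1 2 17 yE17
theorem xE17_0 : eqR xE17 (x1 17 yE17 (zEc 17)) 0 19 = true := by decide +kernel
theorem xE17_len : Nat.beq (List.length xE17) 19 = true := by decide +kernel
noncomputable def xO17 : List Nat := by r187_x1 3 17 yO17
theorem xO17_0 : eqR xO17 (x1 17 yO17 (zOc 17)) 0 9 = true := by decide +kernel
theorem xO17_1 : eqR xO17 (x1 17 yO17 (zOc 17)) 9 10 = true := by decide +kernel
theorem xO17_len : Nat.beq (List.length xO17) 19 = true := by decide +kernel
noncomputable def wE17 : List Nat := by r187_tab 4 17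
theorem wE17_0 : eqR wE17 (wEc 17) 0 11 = true := by decide +kernel
theorem wE17_1 : eqR wE17 (wEc 17) 11 11 = true := by decide +kernel
theorem wE17_len : Nat.beq (List.length wE17) 22 = true := by decide +kernel
noncomputable def wO17 : List Nat := by r187_tab 5 17
theorem wO17_0 : eqR wO17 (wOc 17) 0 11 = true := by decide +kernel
theorem wO17_1 : eqR wO17 (wOc 17) 11 11 = true := by decide +kernel
theorem wO17_len : Nat.beq (List.length wO17) 22 = true := by decide +kernel

end Crest.Agent.R187.Num
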