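import Crest.Agent.R187.C.A16

set_option autoImplicit false
set_option Elab.async false
set_option maxRecDepth 100000

namespace Crest.Agent.R187.Num
open Crest.Agent.R187.Alg Crest.Agent.R187.Tac

noncomputable def yE18 : List Nat := by r187_tab 0 18
theorem yE18_0 : eqR yE18 (yEc 18) 0 2 = true := by decide +kernel
theorem yE18_len : Nat.beq (List.length yE18) 2 = true := by decide +kernel
noncomputable def yO18 : List Nat := by r187_tab 1 18
theorem yO18_0 : eqR yO18 (yOc 18) 0 2 = true := by decide +kernel
theorem yO18_len : Nat.beq (List.length yO18) 2 = true := by decide +kernel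
noncomputable def xE18 : List Nat := by r187_x1 2 18 yE18
theorem xE18_0 : eqR xE18 (x1 18 yE18 (zEc 18)) 0 20 = true := by decide +kernel
theorem xE18_len : Nat.beq (List.length xE18) 20 = true := by decide +kernel
noncomputable def xO18 : List Nat := by r187_x1 3 18 yO18
theorem xO18_0 : eqR xO18 (x1 18 yO18 (zOc 18)) 0 10 = true := by decide +kernel
theorem xO18_1 : eqR xO18 (x1 18 yO18 (zOc 18)) 10 10 = true := by decide +kernel
theorem xO18_len : Nat.beq (List.length xO18) 20 = true := by decide +kernel
noncomputable def wE18 : List Nat := by r187_tab 4 18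
theorem wE18_0 : eqR wE18 (wEc 18) 0 11 = true := by decide +kernel
theorem wE18_1 : eqR wE18 (wEc 18) 11 12 = true := by decide +kernel
theorem wE18_len : Nat.beq (List.length wE18) 23 = true := by decide +kernel
noncomputable def wO18 : List Nat := by r187_tab 5 18
theorem wO18_0 : eqR wO18 (wOc 18) 0 11 = true := by decide +kernel
theorem wO18_1 : eqR wO18 (wOc 18) 11 12 = true := by decide +kernel
theorem wO18_len : Nat.beq (List.length wO18) 23 = true := by decide +kernel

end Crest.Agent.R187.Num
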