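import Crest.Agent.R187.C.A17

set_option autoImplicit false
set_option Elab.async false
set_option maxRecDepth 100000

namespace Crest.Agent.R187.Num
open Crest.Agent.R187.Alg Crest.Agent.R187.Tac

noncomputable def yE19 : List Nat := by r187_tab 0 19
theorem yE19_0 : eqR yE19 (yEc 19) 0 2 = true := by decide +kernel
theorem yE19_len : Nat.beq (List.length yE19) 2 = true := by decide +kernel
noncomputable def yO19 : List Nat := by r187_tab 1 19
theorem yO19_0 : eqR yO19 (yOc 19) 0 2 = true := by decide +kernel
theorem yO19_len : Nat.beq (List.length yO19) 2 = true := by decide +kernel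
noncomputable def xE19 : List Nat := by r187_x1 2 19 yE19
theorem xE19_0 : eqR xE19 (x1 19 yE19 (zEc 19)) 0 21 = true := by decide +kernel
theorem xE19_len : Nat.beq (List.length xE19) 21 = true := by decide +kernel
noncomputable def xO19 : List Nat := by r187_x1 3 19 yO19
theorem xO19_0 : eqR xO19 (x1 19 yO19 (zOc 19)) 0 10 = true := by decide +kernel
theorem xO19_1 : eqR xO19 (x1 19 yO19 (zOc 19)) 10 11 = true := by decide +kernel
theorem xO19_len : Nat.beq (List.length xO19) 21 = true := by decide +kernel
noncomputable def wE19 : List Nat := by r187_tab 4 19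
theorem wE19_0 : eqR wE19 (wEc 19) 0 12 = true := by decide +kernel
theorem wE19_1 : eqR wE19 (wEc 19) 12 12 = true := by decide +kernel
theorem wE19_len : Nat.beq (List.length wE19) 24 = true := by decide +kernel
noncomputable def wO19 : List Nat := by r187_tab 5 19
theorem wO19_0 : eqR wO19 (wOc 19) 0 12 = true := by decide +kernel
theorem wO19_1 : eqR wO19 (wOc 19) 12 12 = true := by decide +kernel
theorem wO19_len : Nat.beq (List.length wO19) 24 = true := by decide +kernel

end Crest.Agent.R187.Num
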