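import Crest.Agent.R187.C.A0

set_option autoImplicit false
set_option Elab.async false
set_option maxRecDepth 100000

namespace Crest.Agent.R187.Num
open Crest.Agent.R187.Alg Crest.Agent.R187.Tac

noncomputable def yE2 : List Nat := by r187_tab 0 2
theorem yE2_0 : eqR yE2 (yEc 2) 0 2 = true := by decide +kernel
theorem yE2_len : Nat.beq (List.length yE2) 2 = true := by decide +kernel
noncomputable def yO2 : List Nat := by r187_tab 1 2
theorem yO2_0 : eqR yO2 (yOc 2) 0 2 = true := by decide +kernel
theorem yO2_len : Nat.beq (List.length yO2) 2 = true := by decide +kernel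
noncomputable def xE2 : List Nat := by r187_x1 2 2 yE2
theorem xE2_0 : eqR xE2 (x1 2 yE2 (zEc 2)) 0 4 = true := by decide +kernel
theorem xE2_len : Nat.beq (List.length xE2) 4 = true := by decide +kernel
noncomputable def xO2 : List Nat := by r187_x1 3 2 yO2
theorem xO2_0 : eqR xO2 (x1 2 yO2 (zOc 2)) 0 4 = true := by decide +kernel
theorem xO2_len : Nat.beq (List.length xO2) 4 = true := by decide +kernel
noncomputable def wE2 : List Nat := by r187_tab 4 2
theorem wE2_0 : eqR wE2 (wEc 2) 0 4 = true := by decide +kernel
theorem wE2_len : Nat.beq (List.length wE2) 4 = true := by decide +kernel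
noncomputable def wO2 : List Nat := by r187_tab 5 2
theorem wO2_0 : eqR wO2 (wOc 2) 0 4 = true := by decide +kernel
theorem wO2_len : Nat.beq (List.length wO2) 4 = true := by decide +kernel

end Crest.Agent.R187.Num
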