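import Crest.Agent.R187.C.A18

set_option autoImplicit false
set_option Elab.async false
set_option maxRecDepth 100000

namespace Crest.Agent.R187.Num
open Crest.Agent.R187.Alg Crest.Agent.R187.Tac

noncomputable def yE20 : List Nat := by r187_tab 0 20
theorem yE20_0 : eqR yE20 (yEc 20) 0 2 = true := by decide +kernel
theorem yE20_len : Nat.beq (List.length yE20) 2 = true := by decide +kernel
noncomputable def yO20 : List Nat := by r187_tab 1 20
theorem yO20_0 : eqR yO20 (yOc 20) 0 2 = true := by decide +kernel
theorem yO20_len : Nat.beq (List.length yO20) 2 = true := by decide +kernel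
noncomputable def xE20 : List Nat := by r187_x1 2 20 yE20
theorem xE20_0 : eqR xE20 (x1 20 yE20 (zEc 20)) 0 11 = true := by decide +kernel
theorem xE20_1 : eqR xE20 (x1 20 yE20 (zEc 20)) 11 11 = true := by decide +kernel
theorem xE20_len : Nat.beq (List.length xE20) 22 = true := by decide +kernel
noncomputable def xO20 : List Nat := by r187_x1 3 20 yO20
theorem xO20_0 : eqR xO20 (x1 20 yO20 (zOc 20)) 0 11 = true := by decide +kernel
theorem xO20_1 : eqR xO20 (x1 20 yO20 (zOc 20)) 11 11 = true := by decide +kernel
theorem xO20_len : Nat.beq (List.length xO20) 22 = true := by decide +kernel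
noncomputable def wE20 : List Nat := by r187_tab 4 20
theorem wE20_0 : eqR wE20 (wEc 20) 0 13 = true := by decide +kernel
theorem wE20_1 : eqR wE20 (wEc 20) 13 13 = true := by decide +kernel
theorem wE20_len : Nat.beq (List.length wE20) 26 = true := by decide +kernel
noncomputable def wO20 : List Nat := by r187_tab 5 20
theorem wO20_0 : eqR wO20 (wOc 20) 0 13 = true := by decide +kernel
theorem wO20_1 : eqR wO20 (wOc 20) 13 13 = true := by decide +kernel
theorem wO20_len : Nat.beq (List.length wO20) 26 = true := by decide +kernel

end Crest.Agent.R187.Num
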