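import Crest.Agent.R187.C.A19

set_option autoImplicit false
set_option Elab.async false
set_option maxRecDepth 100000

namespace Crest.Agent.R187.Num
open Crest.Agent.R187.Alg Crest.Agent.R187.Tac

noncomputable def yE21 : List Nat := by r187_tab 0 21
theorem yE21_0 : eqR yE21 (yEc 21) 0 2 = true := by decide +kernel
theorem yE21_len : Nat.beq (List.length yE21) 2 = true := by decide +kernel
noncomputable def yO21 : List Nat := by r187_tab 1 21
theorem yO21_0 : eqR yO21 (yOc 21) 0 2 = true := by decide +kernel
theorem yO21_len : Nat.beq (List.length yO21) 2 = true := by decide +kernel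
noncomputable def xE21 : List Nat := by r187_x1 2 21 yE21
theorem xE21_0 : eqR xE21 (x1 21 yE21 (zEc 21)) 0 11 = true := by decide +kernel
theorem xE21_1 : eqR xE21 (x1 21 yE21 (zEc 21)) 11 12 = true := by decide +kernel
theorem xE21_len : Nat.beq (List.length xE21) 23 = true := by decide +kernel
noncomputable def xO21 : List Nat := by r187_x1 3 21 yO21
theorem xO21_0 : eqR xO21 (x1 21 yO21 (zOc 21)) 0 7 = true := by decide +kernel
theorem xO21_1 : eqR xO21 (x1 21 yO21 (zOc 21)) 7 8 = true := by decide +kernel
theorem xO21_2 : eqR xO21 (x1 21 yO21 (zOc 21)) 15 8 = true := by decide +kernel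
theorem xO21_len : Nat.beq (List.length xO21) 23 = true := by decide +kernel
noncomputable def wE21 : List Nat := by r187_tab 4 21
theorem wE21_0 : eqR wE21 (wEc 21) 0 9 = true := by decide +kernel
theorem wE21_1 : eqR wE21 (wEc 21) 9 9 = true := by decide +kernel
theorem wE21_2 : eqR wE21 (wEc 21) 18 9 = true := by decide +kernel
theorem wE21_len : Nat.beq (List.length wE21) 27 = true := by decide +kernel
noncomputable def wO21 : List Nat := by r187_tab 5 21
theorem wO21_0 : eqR wO21 (wOc 21) 0 9 = true := by decide +kernel
theorem wO21_1 : eqR wO21 (wOc 21) 9 9 = true := by decide +kernel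
theorem wO21_2 : eqR wO21 (wOc 21) 18 9 = true := by decide +kernel
theorem wO21_len : Nat.beq (List.length wO21) 27 = true := by decide +kernel

end Crest.Agent.R187.Num
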