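import Crest.Agent.R187.C.A20

set_option autoImplicit false
set_option Elab.async false
set_option maxRecDepth 100000

namespace Crest.Agent.R187.Num
open Crest.Agent.R187.Alg Crest.Agent.R187.Tac

noncomputable def yE22 : List Nat := by r187_tab 0 22
theorem yE22_0 : eqR yE22 (yEc 22) 0 2 = true := by decide +kernel
theorem yE22_len : Nat.beq (List.length yE22) 2 = true := by decide +kernel
noncomputable def yO22 : List Nat := by r187_tab 1 22
theorem yO22_0 : eqR yO22 (yOc 22) 0 2 = true := by decide +kernel
theorem yO22_len : Nat.beq (List.length yO22) 2 = true := by decide +kernel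
noncomputable def xE22 : List Nat := by r187_x1 2 22 yE22
theorem xE22_0 : eqR xE22 (x1 22 yE22 (zEc 22)) 0 12 = true := by decide +kernel
theorem xE22_1 : eqR xE22 (x1 22 yE22 (zEc 22)) 12 12 = true := by decide +kernel
theorem xE22_len : Nat.beq (List.length xE22) 24 = true := by decide +kernel
noncomputable def xO22 : List Nat := by r187_x1 3 22 yO22
theorem xO22_0 : eqR xO22 (x1 22 yO22 (zOc 22)) 0 8 = true := by decide +kernel
theorem xO22_1 : eqR xO22 (x1 22 yO22 (zOc 22)) 8 8 = true := by decide +kernel
theorem xO22_2 : eqR xO22 (x1 22 yO22 (zOc 22)) 16 8 = true := by decide +kernel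
theorem xO22_len : Nat.beq (List.length xO22) 24 = true := by decide +kernel
noncomputable def wE22 : List Nat := by r187_tab 4 22
theorem wE22_0 : eqR wE22 (wEc 22) 0 9 = true := by decide +kernel
theorem wE22_1 : eqR wE22 (wEc 22) 9 9 = true := by decide +kernel
theorem wE22_2 : eqR wE22 (wEc 22) 18 10 = true := by decide +kernel
theorem wE22_len : Nat.beq (List.length wE22) 28 = true := by decide +kernel
noncomputable def wO22 : List Nat := by r187_tab 5 22
theorem wO22_0 : eqR wO22 (wOc 22) 0 9 = true := by decide +kernel
theorem wO22_1 : eqR wO22 (wOc 22) 9 9 = true := by decide +kernel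
theorem wO22_2 : eqR wO22 (wOc 22) 18 10 = true := by decide +kernel
theorem wO22_len : Nat.beq (List.length wO22) 28 = true := by decide +kernel

end Crest.Agent.R187.Num
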