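import Crest.Agent.R187.C.A21

set_option autoImplicit false
set_option Elab.async false
set_option maxRecDepth 100000

namespace Crest.Agent.R187.Num
open Crest.Agent.R187.Alg Crest.Agent.R187.Tac

noncomputable def yE23 : List Nat := by r187_tab 0 23
theorem yE23_0 : eqR yE23 (yEc 23) 0 2 = true := by decide +kernel
theorem yE23_len : Nat.beq (List.length yE23) 2 = true := by decide +kernel
noncomputable def yO23 : List Nat := by r187_tab 1 23
theorem yO23_0 : eqR yO23 (yOc 23) 0 2 = true := by decide +kernel
theorem yO23_len : Nat.beq (List.length yO23) 2 = true := by decide +kernel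
noncomputable def xE23 : List Nat := by r187_x1 2 23 yE23
theorem xE23_0 : eqR xE23 (x1 23 yE23 (zEc 23)) 0 12 = true := by decide +kernel
theorem xE23_1 : eqR xE23 (x1 23 yE23 (zEc 23)) 12 13 = true := by decide +kernel
theorem xE23_len : Nat.beq (List.length xE23) 25 = true := by decide +kernel
noncomputable def xO23 : List Nat := by r187_x1 3 23 yO23
theorem xO23_0 : eqR xO23 (x1 23 yO23 (zOc 23)) 0 6 = true := by decide +kernel
theorem xO23_1 : eqR xO23 (x1 23 yO23 (zOc 23)) 6 6 = true := by decide +kernel
theorem xO23_2 : eqR xO23 (x1 23 yO23 (zOc 23)) 12 6 = true := by decide +kernel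
theorem xO23_3 : eqR xO23 (x1 23 yO23 (zOc 23)) 18 7 = true := by decide +kernel
theorem xO23_len : Nat.beq (List.length xO23) 25 = true := by decide +kernel
noncomputable def wE23 : List Nat := by r187_tab 4 23
theorem wE23_0 : eqR wE23 (wEc 23) 0 7 = true := by decide +kernel
theorem wE23_1 : eqR wE23 (wEc 23) 7 7 = true := by decide +kernel
theorem wE23_2 : eqR wE23 (wEc 23) 14 7 = true := by decide +kernel
theorem wE23_3 : eqR wE23 (wEc 23) 21 8 = true := by decide +kernel
theorem wE23_len : Nat.beq (List.length wE23) 29 = true := by decide +kernel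
noncomputable def wO23 : List Nat := by r187_tab 5 23
theorem wO23_0 : eqR wO23 (wOc 23) 0 7 = true := by decide +kernel
theorem wO23_1 : eqR wO23 (wOc 23) 7 7 = true := by decide +kernel
theorem wO23_2 : eqR wO23 (wOc 23) 14 7 = true := by decide +kernel
theorem wO23_3 : eqR wO23 (wOc 23) 21 8 = true := by decide +kernel
theorem wO23_len : Nat.beq (List.length wO23) 29 = true := by decide +kernel

end Crest.Agent.R187.Num
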