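import Crest.Agent.R187.C.A22

set_option autoImplicit false
set_option Elab.async false
set_option maxRecDepth 100000

namespace Crest.Agent.R187.Num
open Crest.Agent.R187.Alg Crest.Agent.R187.Tac

noncomputable def yE24 : List Nat := by r187_tab 0 24
theorem yE24_0 : eqR yE24 (yEc 24) 0 2 = true := by decide +kernel
theorem yE24_len : Nat.beq (List.length yE24) 2 = true := by decide +kernel
noncomputable def yO24 : List Nat := by r187_tab 1 24
theorem yO24_0 : eqR yO24 (yOc 24) 0 2 = true := by decide +kernel
theorem yO24_len : Nat.beq (List.length yO24) 2 = true := by decide +kernel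
noncomputable def xE24 : List Nat := by r187_x1 2 24 yE24
theorem xE24_0 : eqR xE24 (x1 24 yE24 (zEc 24)) 0 13 = true := by decide +kernel
theorem xE24_1 : eqR xE24 (x1 24 yE24 (zEc 24)) 13 13 = true := by decide +kernel
theorem xE24_len : Nat.beq (List.length xE24) 26 = true := by decide +kernel
noncomputable def xO24 : List Nat := by r187_x1 3 24 yO24
theorem xO24_0 : eqR xO24 (x1 24 yO24 (zOc 24)) 0 6 = true := by decide +kernel
theorem xO24_1 : eqR xO24 (x1 24 yO24 (zOc 24)) 6 7 = true := by decide +kernel
theorem xO24_2 : eqR xO24 (x1 24 yO24 (zOc 24)) 13 6 = true := by decide +kernel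
theorem xO24_3 : eqR xO24 (x1 24 yO24 (zOc 24)) 19 7 = true := by decide +kernel
theorem xO24_len : Nat.beq (List.length xO24) 26 = true := by decide +kernel
noncomputable def wE24 : List Nat := by r187_tab 4 24
theorem wE24_0 : eqR wE24 (wEc 24) 0 7 = true := by decide +kernel
theorem wE24_1 : eqR wE24 (wEc 24) 7 8 = true := by decide +kernel
theorem wE24_2 : eqR wE24 (wEc 24) 15 7 = true := by decide +kernel
theorem wE24_3 : eqR wE24 (wEc 24) 22 8 = true := by decide +kernel
theorem wE24_len : Nat.beq (List.length wE24) 30 = true := by decide +kernel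
noncomputable def wO24 : List Nat := by r187_tab 5 24
theorem wO24_0 : eqR wO24 (wOc 24) 0 7 = true := by decide +kernel
theorem wO24_1 : eqR wO24 (wOc 24) 7 8 = true := by decide +kernel
theorem wO24_2 : eqR wO24 (wOc 24) 15 7 = true := by decide +kernel
theorem wO24_3 : eqR wO24 (wOc 24) 22 8 = true := by decide +kernel
theorem wO24_len : Nat.beq (List.length wO24) 30 = true := by decide +kernel

end Crest.Agent.R187.Num
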