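import Crest.Agent.R187.C.A1

set_option autoImplicit false
set_option Elab.async false
set_option maxRecDepth 100000

namespace Crest.Agent.R187.Num
open Crest.Agent.R187.Alg Crest.Agent.R187.Tac

noncomputable def yE3 : List Nat := by r187_tab 0 3
theorem yE3_0 : eqR yE3 (yEc 3) 0 2 = true := by decide +kernel
theorem yE3_len : Nat.beq (List.length yE3) 2 = true := by decide +kernel
noncomputable def yO3 : List Nat := by r187_tab 1 3
theorem yO3_0 : eqR yO3 (yOc 3) 0 2 = true := by decide +kernel
theorem yO3_len : Nat.beq (List.length yO3) 2 = true := by decide +kernel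
noncomputable def xE3 : List Nat := by r187_x1 2 3 yE3
theorem xE3_0 : eqR xE3 (x1 3 yE3 (zEc 3)) 0 5 = true := by decide +kernel
theorem xE3_len : Nat.beq (List.length xE3) 5 = true := by decide +kernel
noncomputable def xO3 : List Nat := by r187_x1 3 3 yO3
theorem xO3_0 : eqR xO3 (x1 3 yO3 (zOc 3)) 0 5 = true := by decide +kernel
theorem xO3_len : Nat.beq (List.length xO3) 5 = true := by decide +kernel
noncomputable def wE3 : List Nat := by r187_tab 4 3
theorem wE3_0 : eqR wE3 (wEc 3) 0 5 = true := by decide +kernel
theorem wE3_len : Nat.beq (List.length wE3) 5 = true := by decide +kernel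
noncomputable def wO3 : List Nat := by r187_tab 5 3
theorem wO3_0 : eqR wO3 (wOc 3) 0 5 = true := by decide +kernel
theorem wO3_len : Nat.beq (List.length wO3) 5 = true := by decide +kernel

end Crest.Agent.R187.Num
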