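import Crest.Agent.R187.C.A2

set_option autoImplicit false
set_option Elab.async false
set_option maxRecDepth 100000

namespace Crest.Agent.R187.Num
open Crest.Agent.R187.Alg Crest.Agent.R187.Tac

noncomputable def yE4 : List Nat := by r187_tab 0 4
theorem yE4_0 : eqR yE4 (yEc 4) 0 2 = true := by decide +kernel
theorem yE4_len : Nat.beq (List.length yE4) 2 = true := by decide +kernel
noncomputable def yO4 : List Nat := by r187_tab 1 4
theorem yO4_0 : eqR yO4 (yOc 4) 0 2 = true := by decide +kernel
theorem yO4_len : Nat.beq (List.length yO4) 2 = true := by decide +kernel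
noncomputable def xE4 : List Nat := by r187_x1 2 4 yE4
theorem xE4_0 : eqR xE4 (x1 4 yE4 (zEc 4)) 0 6 = true := by decide +kernel
theorem xE4_len : Nat.beq (List.length xE4) 6 = true := by decide +kernel
noncomputable def xO4 : List Nat := by r187_x1 3 4 yO4
theorem xO4_0 : eqR xO4 (x1 4 yO4 (zOc 4)) 0 6 = true := by decide +kernel
theorem xO4_len : Nat.beq (List.length xO4) 6 = true := by decide +kernel
noncomputable def wE4 : List Nat := by r187_tab 4 4
theorem wE4_0 : eqR wE4 (wEc 4) 0 6 = true := by decide +kernel
theorem wE4_len : Nat.beq (List.length wE4) 6 = true := by decide +kernel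
noncomputable def wO4 : List Nat := by r187_tab 5 4
theorem wO4_0 : eqR wO4 (wOc 4) 0 6 = true := by decide +kernel
theorem wO4_len : Nat.beq (List.length wO4) 6 = true := by decide +kernel

end Crest.Agent.R187.Num
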