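import Crest.Agent.R187.C.A3

set_option autoImplicit false
set_option Elab.async false
set_option maxRecDepth 100000

namespace Crest.Agent.R187.Num
open Crest.Agent.R187.Alg Crest.Agent.R187.Tac

noncomputable def yE5 : List Nat := by r187_tab 0 5
theorem yE5_0 : eqR yE5 (yEc 5) 0 2 = true := by decide +kernel
theorem yE5_len : Nat.beq (List.length yE5) 2 = true := by decide +kernel
noncomputable def yO5 : List Nat := by r187_tab 1 5
theorem yO5_0 : eqR yO5 (yOc 5) 0 2 = true := by decide +kernel
theorem yO5_len : Nat.beq (List.length yO5) 2 = true := by decide +kernel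
noncomputable def xE5 : List Nat := by r187_x1 2 5 yE5
theorem xE5_0 : eqR xE5 (x1 5 yE5 (zEc 5)) 0 7 = true := by decide +kernel
theorem xE5_len : Nat.beq (List.length xE5) 7 = true := by decide +kernel
noncomputable def xO5 : List Nat := by r187_x1 3 5 yO5
theorem xO5_0 : eqR xO5 (x1 5 yO5 (zOc 5)) 0 7 = true := by decide +kernel
theorem xO5_len : Nat.beq (List.length xO5) 7 = true := by decide +kernel
noncomputable def wE5 : List Nat := by r187_tab 4 5
theorem wE5_0 : eqR wE5 (wEc 5) 0 8 = true := by decide +kernel
theorem wE5_len : Nat.beq (List.length wE5) 8 = true := by decide +kernel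
noncomputable def wO5 : List Nat := by r187_tab 5 5
theorem wO5_0 : eqR wO5 (wOc 5) 0 8 = true := by decide +kernel
theorem wO5_len : Nat.beq (List.length wO5) 8 = true := by decide +kernel

end Crest.Agent.R187.Num
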