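import Crest.Agent.R187.C.A4

set_option autoImplicit false
set_option Elab.async false
set_option maxRecDepth 100000

namespace Crest.Agent.R187.Num
open Crest.Agent.R187.Alg Crest.Agent.R187.Tac

noncomputable def yE6 : List Nat := by r187_tab 0 6
theorem yE6_0 : eqR yE6 (yEc 6) 0 2 = true := by decide +kernel
theorem yE6_len : Nat.beq (List.length yE6) 2 = true := by decide +kernel
noncomputable def yO6 : List Nat := by r187_tab 1 6
theorem yO6_0 : eqR yO6 (yOc 6) 0 2 = true := by decide +kernel
theorem yO6_len : Nat.beq (List.length yO6) 2 = true := by decide +kernel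
noncomputable def xE6 : List Nat := by r187_x1 2 6 yE6
theorem xE6_0 : eqR xE6 (x1 6 yE6 (zEc 6)) 0 8 = true := by decide +kernel
theorem xE6_len : Nat.beq (List.length xE6) 8 = true := by decide +kernel
noncomputable def xO6 : List Nat := by r187_x1 3 6 yO6
theorem xO6_0 : eqR xO6 (x1 6 yO6 (zOc 6)) 0 8 = true := by decide +kernel
theorem xO6_len : Nat.beq (List.length xO6) 8 = true := by decide +kernel
noncomputable def wE6 : List Nat := by r187_tab 4 6
theorem wE6_0 : eqR wE6 (wEc 6) 0 9 = true := by decide +kernel
theorem wE6_len : Nat.beq (List.length wE6) 9 = true := by decide +kernel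
noncomputable def wO6 : List Nat := by r187_tab 5 6
theorem wO6_0 : eqR wO6 (wOc 6) 0 9 = true := by decide +kernel
theorem wO6_len : Nat.beq (List.length wO6) 9 = true := by decide +kernel

end Crest.Agent.R187.Num
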