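import Crest.Agent.R187.C.A5

set_option autoImplicit false
set_option Elab.async false
set_option maxRecDepth 100000

namespace Crest.Agent.R187.Num
open Crest.Agent.R187.Alg Crest.Agent.R187.Tac

noncomputable def yE7 : List Nat := by r187_tab 0 7
theorem yE7_0 : eqR yE7 (yEc 7) 0 2 = true := by decide +kernel
theorem yE7_len : Nat.beq (List.length yE7) 2 = true := by decide +kernel
noncomputable def yO7 : List Nat := by r187_tab 1 7
theorem yO7_0 : eqR yO7 (yOc 7) 0 2 = true := by decide +kernel
theorem yO7_len : Nat.beq (List.length yO7) 2 = true := by decide +kernel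
noncomputable def xE7 : List Nat := by r187_x1 2 7 yE7
theorem xE7_0 : eqR xE7 (x1 7 yE7 (zEc 7)) 0 9 = true := by decide +kernel
theorem xE7_len : Nat.beq (List.length xE7) 9 = true := by decide +kernel
noncomputable def xO7 : List Nat := by r187_x1 3 7 yO7
theorem xO7_0 : eqR xO7 (x1 7 yO7 (zOc 7)) 0 9 = true := by decide +kernel
theorem xO7_len : Nat.beq (List.length xO7) 9 = true := by decide +kernel
noncomputable def wE7 : List Nat := by r187_tab 4 7
theorem wE7_0 : eqR wE7 (wEc 7) 0 10 = true := by decide +kernel
theorem wE7_len : Nat.beq (List.length wE7) 10 = true := by decide +kernel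
noncomputable def wO7 : List Nat := by r187_tab 5 7
theorem wO7_0 : eqR wO7 (wOc 7) 0 10 = true := by decide +kernel
theorem wO7_len : Nat.beq (List.length wO7) 10 = true := by decide +kernel

end Crest.Agent.R187.Num
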