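import Crest.Agent.R187.C.A6

set_option autoImplicit false
set_option Elab.async false
set_option maxRecDepth 100000

namespace Crest.Agent.R187.Num
open Crest.Agent.R187.Alg Crest.Agent.R187.Tac

noncomputable def yE8 : List Nat := by r187_tab 0 8
theorem yE8_0 : eqR yE8 (yEc 8) 0 2 = true := by decide +kernel
theorem yE8_len : Nat.beq (List.length yE8) 2 = true := by decide +kernel
noncomputable def yO8 : List Nat := by r187_tab 1 8
theorem yO8_0 : eqR yO8 (yOc 8) 0 2 = true := by decide +kernel
theorem yO8_len : Nat.beq (List.length yO8) 2 = true := by decide +kernel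
noncomputable def xE8 : List Nat := by r187_x1 2 8 yE8
theorem xE8_0 : eqR xE8 (x1 8 yE8 (zEc 8)) 0 10 = true := by decide +kernel
theorem xE8_len : Nat.beq (List.length xE8) 10 = true := by decide +kernel
noncomputable def xO8 : List Nat := by r187_x1 3 8 yO8
theorem xO8_0 : eqR xO8 (x1 8 yO8 (zOc 8)) 0 10 = true := by decide +kernel
theorem xO8_len : Nat.beq (List.length xO8) 10 = true := by decide +kernel
noncomputable def wE8 : List Nat := by r187_tab 4 8
theorem wE8_0 : eqR wE8 (wEc 8) 0 11 = true := by decide +kernel
theorem wE8_len : Nat.beq (List.length wE8) 11 = true := by decide +kernel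
noncomputable def wO8 : List Nat := by r187_tab 5 8
theorem wO8_0 : eqR wO8 (wOc 8) 0 11 = true := by decide +kernel
theorem wO8_len : Nat.beq (List.length wO8) 11 = true := by decide +kernel

end Crest.Agent.R187.Num
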