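import Crest.Agent.R187.C.A7

set_option autoImplicit false
set_option Elab.async false
set_option maxRecDepth 100000

namespace Crest.Agent.R187.Num
open Crest.Agent.R187.Alg Crest.Agent.R187.Tac

noncomputable def yE9 : List Nat := by r187_tab 0 9
theorem yE9_0 : eqR yE9 (yEc 9) 0 2 = true := by decide +kernel
theorem yE9_len : Nat.beq (List.length yE9) 2 = true := by decide +kernel
noncomputable def yO9 : List Nat := by r187_tab 1 9
theorem yO9_0 : eqR yO9 (yOc 9) 0 2 = true := by decide +kernel
theorem yO9_len : Nat.beq (List.length yO9) 2 = true := by decide +kernel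
noncomputable def xE9 : List Nat := by r187_x1 2 9 yE9
theorem xE9_0 : eqR xE9 (x1 9 yE9 (zEc 9)) 0 11 = true := by decide +kernel
theorem xE9_len : Nat.beq (List.length xE9) 11 = true := by decide +kernel
noncomputable def xO9 : List Nat := by r187_x1 3 9 yO9
theorem xO9_0 : eqR xO9 (x1 9 yO9 (zOc 9)) 0 11 = true := by decide +kernel
theorem xO9_len : Nat.beq (List.length xO9) 11 = true := by decide +kernel
noncomputable def wE9 : List Nat := by r187_tab 4 9
theorem wE9_0 : eqR wE9 (wEc 9) 0 12 = true := by decide +kernel
theorem wE9_len : Nat.beq (List.length wE9) 12 = true := by decide +kernel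
noncomputable def wO9 : List Nat := by r187_tab 5 9
theorem wO9_0 : eqR wO9 (wOc 9) 0 12 = true := by decide +kernel
theorem wO9_len : Nat.beq (List.length wO9) 12 = true := by decide +kernel

end Crest.Agent.R187.Num
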