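import Crest.Agent.R187.C.N
import Crest.Agent.R187.C.A1

set_option autoImplicit false
set_option Elab.async false
set_option maxRecDepth 100000

namespace Crest.Agent.R187.Num
open Crest.Agent.R187.Alg Crest.Agent.R187.Tac

noncomputable def cert1_0 : List (List (List (List Nat))) := by r187_cert "17179870572,,27279753216,,25115492352|,,,,|,,,,;,,,,"
theorem fin1_0 : chkA TT NN xE1 xO1 wE1 wO1 1 1 2 cert1_0 = true := by decide +kernel

end Crest.Agent.R187.Num
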