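import Crest.Agent.R187.C.N
import Crest.Agent.R187.C.A2

set_option autoImplicit false
set_option Elab.async false
set_option maxRecDepth 100000

namespace Crest.Agent.R187.Num
open Crest.Agent.R187.Alg Crest.Agent.R187.Tac

noncomputable def cert2_0 : List (List (List (List Nat))) := by r187_cert "15636365312,1858,7616856064,13514,28001173504|9193914368,,66672656384,,12968787968|,3874,,12458,|,,,,;10804527104,,27816624128,,67528294400|,,,,|,,,,;,20870856704,,3774873600,|,,,,"
theorem fin2_0 : chkA TT NN xE2 xO2 wE2 wO2 2 1 3 cert2_0 = true := by decide +kernel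

end Crest.Agent.R187.Num
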