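import Crest.Agent.R187.C.B0
import Crest.Agent.R187.C.A3

set_option autoImplicit false
set_option Elab.async false
set_option maxRecDepth 100000

namespace Crest.Agent.R187.Num
open Crest.Agent.R187.Alg Crest.Agent.R187.Tac

noncomputable def cert3_0 : List (List (List (List Nat))) := by r187_cert "2972,6018,1106,12874,4442|1372,5442,6994,16202,4826|3548,6594,15826,1994,11322|2236,7458,12784238592,1834,6325010432|9730785280,,25669140480,,21357395968|,,,,;1884,6978,210,5322,14042|4060,5058,6098,4138,14906|30668750848,5922,22649241600,4266,64508395520|,,,,;572,,1074,,4410|,5282,,8069840896,|,,,,;,6818,,66051899392,|,,,,"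
theorem fin3_0 : chkA TT NN xE3 xO3 wE3 wO3 3 1 4 cert3_0 = true := by decide +kernel

end Crest.Agent.R187.Num
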