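import Crest.Agent.R187.C.B1
import Crest.Agent.R187.C.A4

set_option autoImplicit false
set_option Elab.async false
set_option maxRecDepth 100000

namespace Crest.Agent.R187.Num
open Crest.Agent.R187.Alg Crest.Agent.R187.Tac

noncomputable def cert4_0 : List (List (List (List Nat))) := by r187_cert "156,3202,5778,6538,13210|2460,7554,3986,1098,1626|1628,3650,5458,6986,14554|3804,1730,2514,7626,12346|2876,290,3378,7466,13498|636,6050,15282,20686307328,12922|,64458063872,,31138514284,;924,1922,6226,4682,346|2396,1346,2898,8010,730|1500,2498,7634,15306,3130|188,3362,6962,15146,2746|7804,,114,,13946|,,,,;2908,2882,16210,1226,5850|2012,962,2002,42,6714|700,1826,178,170,11962|7548,,17079205888,,29947330560|,,,,;3132,4034,6194,13354,314|,1186,,3242,|22615687168,,68618813440,,64307068928;,2722,,15018,|,,,,"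
theorem fin4_0 : chkA TT NN xE4 xO4 wE4 wO4 4 1 5 cert4_0 = true := by decide +kernel

end Crest.Agent.R187.Num
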