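import Crest.Agent.R187.C.B2
import Crest.Agent.R187.C.A5

set_option autoImplicit false
set_option Elab.async false
set_option maxRecDepth 100000

namespace Crest.Agent.R187.Num
open Crest.Agent.R187.Alg Crest.Agent.R187.Tac

noncomputable def cert5_0 : List (List (List (List Nat))) := by r187_cert "284,3330,1810,4234,7322|2844,130,658,11914,5530|1692,2434,5010,16266,15450|1116,578,338,11594,8026|7388,7362,5842,6602,6106|1340,6690,4402,6442,4282|124,930,7602,2986,5242|,570425344,,63635980288,|,,,,;7964,5250,1682,2442,5018|412,3458,6034,14410,14938|2652,5698,1362,2890,6362|1756,6850,4562,11722,4154|828,7714,5426,11562,5306|3196,1954,7090,4010,4730|,,,,;7580,7042,2130,586,15962|348,6466,4946,12106,15578|2524,450,3538,7114,13370|7996,5410,2866,6954,12986|3708,2146,16306,2154,5754|,,,,;860,4930,8018,14538,9946|3036,7618,15314,16330,10810|7356,6946,16178,16170,3770|3452,,5234,,2426|,,,,;1084,6082,2098,5162,15930|7868,6306,5298,13482,6586|5435817984,,34259075072,,14495516012|,,,,;,4770,,6826,|,,,,;11878268928,,64525172736,,31675385196"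
theorem fin5_0 : chkA TT NN xE5 xO5 wE5 wO5 5 1 7 cert5_0 = true := by decide +kernel

end Crest.Agent.R187.Num
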