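import Crest.Agent.R187.C.B3
import Crest.Agent.R187.C.A6

set_option autoImplicit false
set_option Elab.async false
set_option maxRecDepth 100000

namespace Crest.Agent.R187.Num
open Crest.Agent.R187.Alg Crest.Agent.R187.Tac

noncomputable def cert6_0 : List (List (List (List Nat))) := by r187_cert "3100,6658,274,14602,4890|1564,2306,786,14090,6298|3356,1794,1170,6794,12698|3228,5762,5522,1930,14426|8092,1090,1618,6474,15194|2268,6338,4818,7882,13274|7740,3106,5682,7722,5946|1980,1442,6578,11690,4218|3836,226,15218,15722,4346|,,,,;7708,5378,15122,138,11418|796,7938,15506,3722,9626|2716,386,914,8074,7258|2140,7234,15954,3402,12122|3292,3266,1746,2506,10202|2364,2594,306,2346,186|8124,7586,3506,13226,1146|6777995264,1250,26138902528,7018,5452595200|,,,,;3868,1154,14994,12682,922|7836,5506,1938,6218,6746|604,1602,14674,13130,10458|2780,2754,466,3530,58|7484,3618,1330,3370,1210|1148,7074,2994,14250,634|,738,,12138,|,,,,;3484,2946,4178,15434,7770|7772,2370,850,3914,7386|476,7874,5586,3018,5178|3900,1314,4914,2858,4794|1660,98,8114,12394,9850|,19360907264,,23907532800,;7516,834,3922,6346,1754|988,3522,7122,8138,2618|3260,2850,7986,7978,14010|1404,7266,1138,13418,12666|,6476005376,,66857205760,;2108,1986,4146,1066,7738|3772,2210,1202,5290,10682|1916,,4722,,13690|,,,,;,674,,2730,|65565360128,,8690597888,,17062428672|,,,,;,,,,"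
theorem fin6_0 : chkA TT NN xE6 xO6 wE6 wO6 6 1 8 cert6_0 = true := by decide +kernel

end Crest.Agent.R187.Num
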