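import Crest.Agent.R187.C.B4
import Crest.Agent.R187.C.A7

set_option autoImplicit false
set_option Elab.async false
set_option maxRecDepth 100000

namespace Crest.Agent.R187.Num
open Crest.Agent.R187.Alg Crest.Agent.R187.Tac

noncomputable def cert7_0 : List (List (List (List Nat))) := by r187_cert "28,1026,530,2570,3610,134 10737424018|2076,7170,5650,266,13594,16006|540,3586,5394,2826,16154,5190|2332,4866,4242,15498,3738,3910|2204,2690,2450,5002,90,1990|1948,66,4690,15946,858,3878|8028,8002,3282,1738,3546,14246|1596,6178,2610,1578,2874,31138518338 9663683874|956,418,16050,14762,14266,31138519490|2812,5986,882,5482,31138515132 17179874794,31138520354|2044,994,1522,11559501824,31138513276,14965276900|,,,,,;1052,2562,15890,6410,794,1414|2588,258,15634,5898,10394,2630|1308,6914,14482,2698,4506,6342|1180,1666,1426,15242,6234,38|3996,6210,14930,2378,7002,6310|220,2242,722,11978,5082,2150|3644,5154,1586,11818,10042,31138519874|3004,6562,2482,3498,122,31138517954|1788,8034,7026,7530,250,31138518818|29326573568,,3590324224,,26910654692,;3612,1282,6930,16138,3226,7750|7452,3842,7314,13962,1434,15558|668,7810,15762,12170,11354,5158|92,3138,7762,13642,3930,15526|1244,5314,15058,12746,2010,7270|316,546,15922,12586,16186,230|4028,3490,5554,5034,14458,31138521026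 17179884794|7932,6370,3954,2922,14586,31138518178|63686311936,,29360128000,,7600078848,;1820,6274,6802,4490,15770,1734|3740,1410,15250,2122,10842,2598|3164,6722,6482,4938,2266,1702|732,4802,16082,13770,16346,14950|3388,5666,14642,13610,14522,5350|2172,2978,5042,6058,15482,5606|2556,7394,2290,3946,7418,31138519714|,,,,,;1436,4994,82,7242,11866,7718|3676,322,15698,14154,11482,4518|7900,3778,1490,13258,1082,358|1852,6434,818,13098,698,4838|2684,8098,4018,4202,1658,15846|,1762,,12522,,15334|,,,,,;3420,7490,5970,2250,15066,3494|7644,5570,3026,12234,12858,1382|1212,4898,3890,12074,5818,1766|2428,3170,14450,5226,4474,998|,27950841856,,32497467392,,30551310336;60,7106,50,14378,11834,870|1724,162,14514,1194,2490,16102|2940,5730,626,64709722112,5498,17666408448|,,,,,;65028489216,7330,690,12970,2231369728,31675386428|31205621760,,17280532480,,25652363264,|,,,,,;20468203520,,12985565184,,33017562100,|,,,,,"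
theorem fin7_0 : chkA TT NN xE7 xO7 wE7 wO7 7 1 9 cert7_0 = true := by decide +kernel

end Crest.Agent.R187.Num
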