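import Crest.Agent.R187.C.B5
import Crest.Agent.R187.C.A8

set_option autoImplicit false
set_option Elab.async false
set_option maxRecDepth 100000

namespace Crest.Agent.R187.Num
open Crest.Agent.R187.Alg Crest.Agent.R187.Tac

noncomputable def cert8_0 : List (List (List (List Nat))) := by r187_cert "2,6162,14346,7194 10737421570,4358 11811163266 67645738114,7318 11811165842 67645740690|2050,3090,15370,14874,15110 11811167618,3478 11811164050 33286002322|5122,6674,3594,10522,6790 11811163714,1622 10737434506|1538,6418,15626,5914,70 11811161794,1750 11811162578|7426,7954,5258,15002,4934,1334 6576676764|7298,16018,11658,14234,15814,7606 6576670940|3970,7250,13898,13658,4902,31138518674 3489668668|5954,14546,13002,14810,31138520450 9663678146,31138516882|34,15410,12842,7482,31138516546,31138518354|3746,5810,4522,7098,31138514626,31138515410|7010,3442,2410,31138515772,31138513186,18387831612|3554,2546,16106,31138513532,31138518946,18387829372|8162,,14314,,31138515682,;6146,15378,12810,13850,16134 11811161986,6038 10737420682|3074,1554,15882,5402,7814 11811161410,6486 11811162962|5634,1298,13066,7962,1094,6614 6576671388|770,146,7306,13978,5958,6966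 6576670812|642,4498,906,16282,15302,6070 6576671964|8066,594,7754,15706,5926,7542|3906,5330,15050,13786,6054,31138519122|2082,4658,14890,13114,31138514242,31138515794|7842,7858,6570,6074,31138515394,31138520530|1890,15730,1386,31138513084,31138516258,18387828924|7650,14834,12778,31138520700,31138519138,18387836540|,,,,,;514,7698,2314,15642,14726,2902 11811176274|7682,7442,1802,2202,4678,5078 11811162066|2818,6290,12938,410,2246,2230 6576669276|6786,14738,7050,10330,16326,1142|2114,6738,12618,11098,2214,3958|194,15570,3786,986,4198,3830|1058,14898,3626,1850,31138515778,31138529106|2466,4530,13738,16314,31138513858,31138514898|3938,2930,11626,16250,31138514722,31138513074|5090,3570,1514,31138520444,31625052160,18387836284|,,,,,;6402,2834,7946,13466,3654,8150 6576672156|5890,3218,5770,14746,7366,694|3714,7570,3978,3162,1062,630|5186,3666,5450,14170,7334,2294|1218,6866,4554,15322,3174,2550|7202,7730,4394,7994,16230,1014|5538,1458,938,6266,31138516930,31138519090|2274,6002,13162,6394,31138514082,31138516146|,5106,,31138520956,,18387836796;2178,2706,394,7578,15046,5814|6530,7058,12362,2650,4646,1654|2626,2386,842,12506,15014,5366|706,7890,5578,8154,6758,1526|1570,6450,5418,6330,1254,3062|5026,946,1962,7290,1510,6134|3298,4338,14186,11514,31138515618,31138519730|,,,,,;898,16274,3146,3674,3622,33017564572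 3702|7746,7506,5962,3290,422,33017568860 3318|5826,14802,5066,14394,15974,5622|2338,15666,4906,15546,742,7158|4002,6066,106,14970,7654,4086|6882,3314,4330,2810,7142,8182|,,,,,;3394,1874,12490,6874,5542,2806|1474,5074,4042,4666,14694,31675389250|802,5938,3882,9914,15078,31675390402|5218,6258,1130,378,31675386044,31675391266|7906,,5354,,31675384188,|,,,,,;3010,16338,6186,3642,15718,31675390786|7970,6322,14506,12730,7910,31675388866|1634,15474,618,9594,31675386556,31675389730|6626,,1358954496,,2634022912,;3234,15538,4778,5562,31675384380,31675391938|,1650,,890,,31675389090|15065939968,,9948889088,,11223957504,;,21575499776,,15837692916,,67427631104|,,,,,"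
theorem fin8_0 : chkA TT NN xE8 xO8 wE8 wO8 8 1 10 cert8_0 = true := by decide +kernel

end Crest.Agent.R187.Num
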