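import Crest.Agent.R187.Tac

set_option autoImplicit false
set_option Elab.async false
set_option maxRecDepth 100000

namespace Crest.Agent.R187.Num
open Crest.Agent.R187.Alg Crest.Agent.R187.Tac

noncomputable def dZ0 : List (List Nat) := by r187_del 50 34 25 2 0 50
theorem dC0 : eqLL dZ0 (delTab (lay 50 34 25) 2 0) = true := by decide +kernel
noncomputable def dQ1 : List (List (List Nat)) := [dZ0]
noncomputable def dZ1 : List (List Nat) := by r187_newton 50 34 25 49 1 dQ1 2 0 50
theorem dC1_0 : chkNewton (lay 50 34 25) 49 1 dQ1 dZ1 2 0 1 = true := by decide +kernel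
noncomputable def dQ2 : List (List (List Nat)) := dZ1 :: dQ1
noncomputable def dZ2 : List (List Nat) := by r187_newton 50 34 25 49 2 dQ2 2 0 50
theorem dC2_0 : chkNewton (lay 50 34 25) 49 2 dQ2 dZ2 2 0 1 = true := by decide +kernel
noncomputable def dQ3 : List (List (List Nat)) := dZ2 :: dQ2
noncomputable def dZ3 : List (List Nat) := by r187_newton 50 34 25 48 3 dQ3 2 0 50
theorem dC3_0 : chkNewton (lay 50 34 25) 48 3 dQ3 dZ3 2 0 1 = true := by decide +kernel
noncomputable def dQ4 : List (List (List Nat)) := dZ3 :: dQ3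
noncomputable def dZ4 : List (List Nat) := by r187_newton 50 34 25 48 4 dQ4 2 0 50
theorem dC4_0 : chkNewton (lay 50 34 25) 48 4 dQ4 dZ4 2 0 1 = true := by decide +kernel
noncomputable def dQ5 : List (List (List Nat)) := dZ4 :: dQ4
noncomputable def dZ5 : List (List Nat) := by r187_newton 50 34 25 46 5 dQ5 2 0 50
theorem dC5_0 : chkNewton (lay 50 34 25) 46 5 dQ5 dZ5 2 0 1 = true := by decide +kernel
noncomputable def dQ6 : List (List (List Nat)) := dZ5 :: dQ5
noncomputable def dZ6 : List (List Nat) := by r187_newton 50 34 25 46 6 dQ6 2 0 50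
theorem dC6_0 : chkNewton (lay 50 34 25) 46 6 dQ6 dZ6 2 0 1 = true := by decide +kernel
noncomputable def dQ7 : List (List (List Nat)) := dZ6 :: dQ6
noncomputable def dZ7 : List (List Nat) := by r187_newton 50 34 25 45 7 dQ7 2 0 50
theorem dC7_0 : chkNewton (lay 50 34 25) 45 7 dQ7 dZ7 2 0 1 = true := by decide +kernel
noncomputable def dQ8 : List (List (List Nat)) := dZ7 :: dQ7
noncomputable def dZ8 : List (List Nat) := by r187_newton 50 34 25 45 8 dQ8 2 0 50
theorem dC8_0 : chkNewton (lay 50 34 25) 45 8 dQ8 dZ8 2 0 1 = true := by decide +kernel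
noncomputable def dQ9 : List (List (List Nat)) := dZ8 :: dQ8

end Crest.Agent.R187.Num
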