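import Crest.Agent.R187.C.D0

set_option autoImplicit false
set_option Elab.async false
set_option maxRecDepth 100000

namespace Crest.Agent.R187.Num
open Crest.Agent.R187.Alg Crest.Agent.R187.Tac

noncomputable def dZ9 : List (List Nat) := by r187_newton 50 34 25 42 9 dQ9 2 0 50
theorem dC9_0 : chkNewton (lay 50 34 25) 42 9 dQ9 dZ9 2 0 1 = true := by decide +kernel
noncomputable def dQ10 : List (List (List Nat)) := dZ9 :: dQ9
noncomputable def dZ10 : List (List Nat) := by r187_newton 50 34 25 42 10 dQ10 2 0 50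
theorem dC10_0 : chkNewton (lay 50 34 25) 42 10 dQ10 dZ10 2 0 1 = true := by decide +kernel
noncomputable def dQ11 : List (List (List Nat)) := dZ10 :: dQ10
noncomputable def dT10 : Tr := by r187_tr 50 34 25 41 10 dZ10 "0 0 0,1 0 0,1 1 0,2 0 0,2 1 0,3 0 0"
theorem dD10 : chkTr (lay 50 34 25) (onesL 41) dZ10 10 2 0 dT10 = true := by decide +kernel
noncomputable def dZ11 : List (List Nat) := by r187_newton 50 34 25 41 11 dQ11 2 0 50
theorem dC11_0 : chkNewton (lay 50 34 25) 41 11 dQ11 dZ11 2 0 1 = true := by decide +kernel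
noncomputable def dQ12 : List (List (List Nat)) := dZ11 :: dQ11
noncomputable def dT11 : Tr := by r187_tr 50 34 25 41 11 dZ11 "0 0 0,1 0 0,1 1 0,2 0 0,2 1 0,3 0 0,3 1 0,4 0 0,4 1 0,5 0 0,5 1 0,6 0 0,6 1 0,7 0 0,7 1 0,8 0 0,8 1 0,9 0 0,16 0 0"
theorem dD11 : chkTr (lay 50 34 25) (onesL 41) dZ11 11 2 0 dT11 = true := by decide +kernel
noncomputable def dZ12 : List (List Nat) := by r187_newton 50 34 25 41 12 dQ12 2 0 50
theorem dC12_0 : chkNewton (lay 50 34 25) 41 12 dQ12 dZ12 2 0 1 = true := by decide +kernel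
noncomputable def dQ13 : List (List (List Nat)) := dZ12 :: dQ12
noncomputable def dT12 : Tr := by r187_tr 50 34 25 39 12 dZ12 "0 0 0,1 0 0,1 1 0,2 0 0,2 1 0,3 0 0,3 1 0,4 0 0,4 1 0,5 0 0,5 1 0,6 0 0,6 1 0,7 0 0,7 1 0,8 0 0,8 1 0,9 0 0,10 0 0,10 1 0,11 0 0,11 1 0,12 1 0,13 0 0,13 1 0,14 0 0,14 1 0,15 0 0"
theorem dD12 : chkTr (lay 50 34 25) (onesL 39) dZ12 12 2 0 dT12 = true := by decide +kernel

end Crest.Agent.R187.Num
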