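import Crest.Agent.R187.C.D1

set_option autoImplicit false
set_option Elab.async false
set_option maxRecDepth 100000

namespace Crest.Agent.R187.Num
open Crest.Agent.R187.Alg Crest.Agent.R187.Tac

noncomputable def dZ13 : List (List Nat) := by r187_newton 50 34 25 39 13 dQ13 2 0 50
theorem dC13_0 : chkNewton (lay 50 34 25) 39 13 dQ13 dZ13 2 0 1 = true := by decide +kernel
noncomputable def dQ14 : List (List (List Nat)) := dZ13 :: dQ13
noncomputable def dT13 : Tr := by r187_tr 50 34 25 39 13 dZ13 "0 0 0,1 0 0,1 1 0,2 0 0,2 1 0,3 0 0,3 1 0,4 0 0,4 1 0,5 0 0,5 1 0,6 0 0,6 1 0,7 0 0,7 1 0,8 0 0,8 1 0,9 0 0,9 1 0,10 0 0,10 1 0,11 0 0,11 1 0,12 0 0,12 1 0,13 0 0,13 1 0"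
theorem dD13 : chkTr (lay 50 34 25) (onesL 39) dZ13 13 2 0 dT13 = true := by decide +kernel
noncomputable def dZ14 : List (List Nat) := by r187_newton 50 34 25 39 14 dQ14 2 0 50
theorem dC14_0 : chkNewton (lay 50 34 25) 39 14 dQ14 dZ14 2 0 1 = true := by decide +kernel
noncomputable def dQ15 : List (List (List Nat)) := dZ14 :: dQ14
noncomputable def dT14 : Tr := by r187_tr 50 34 25 38 14 dZ14 "0 0 0,1 0 0,1 1 0,2 0 0,2 1 0,3 0 0,3 1 0,4 0 0,4 1 0,5 0 0,5 1 0,6 0 0,6 1 0,7 0 0,7 1 0,8 0 0,8 1 0,9 0 0,9 1 0,10 0 0,10 1 0,11 0 0,11 1 0,12 0 0,12 1 0,13 0 0,13 1 0,14 0 0"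
theorem dD14 : chkTr (lay 50 34 25) (onesL 38) dZ14 14 2 0 dT14 = true := by decide +kernel
noncomputable def dZ15 : List (List Nat) := by r187_newton 50 34 25 38 15 dQ15 2 0 50
theorem dC15_0 : chkNewton (lay 50 34 25) 38 15 dQ15 dZ15 2 0 1 = true := by decide +kernel
noncomputable def dT15 : Tr := by r187_tr 50 34 25 38 15 dZ15 "0 0 0,1 0 0,1 1 0,2 0 0,2 1 0,3 0 0,3 1 0,4 0 0,4 1 0,5 0 0,5 1 0,6 0 0,6 1 0,7 0 0,7 1 0,8 0 0,8 1 0,9 0 0,9 1 0,10 0 0,10 1 0,11 0 0,11 1 0,12 0 0,12 1 0,13 0 0,13 1 0,14 0 0,14 1 0,15 0 0"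
theorem dD15 : chkTr (lay 50 34 25) (onesL 38) dZ15 15 2 0 dT15 = true := by decide +kernel

end Crest.Agent.R187.Num
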