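import Crest.Agent.R187.Tac

set_option autoImplicit false
set_option Elab.async false
set_option maxRecDepth 100000

namespace Crest.Agent.R187.Num
open Crest.Agent.R187.Alg Crest.Agent.R187.Tac

noncomputable def mZ0 : List (List Nat) := by r187_del 32 22 18 12 10 64
theorem mC0 : eqLL mZ0 (delTab (lay 32 22 18) 12 10) = true := by decide +kernel
noncomputable def mQ1 : List (List (List Nat)) := [mZ0]
noncomputable def mT0 : Tr := by r187_tr 32 22 18 46 0 mZ0 "0 0 0"
theorem mD0 : chkTr (lay 32 22 18) (onesL 46) mZ0 0 12 10 mT0 = true := by decide +kernel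
noncomputable def mZ1 : List (List Nat) := by r187_newton 32 22 18 49 1 mQ1 12 10 64
theorem mC1_0 : chkNewton (lay 32 22 18) 49 1 mQ1 mZ1 12 0 11 = true := by decide +kernel
noncomputable def mQ2 : List (List (List Nat)) := mZ1 :: mQ1
noncomputable def mT1 : Tr := by r187_tr 32 22 18 46 1 mZ1 "0 0 0"
theorem mD1 : chkTr (lay 32 22 18) (onesL 46) mZ1 1 12 10 mT1 = true := by decide +kernel
noncomputable def mZ2 : List (List Nat) := by r187_newton 32 22 18 49 2 mQ2 12 10 64
theorem mC2_0 : chkNewton (lay 32 22 18) 49 2 mQ2 mZ2 12 0 11 = true := by decide +kernel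
noncomputable def mQ3 : List (List (List Nat)) := mZ2 :: mQ2
noncomputable def mT2 : Tr := by r187_tr 32 22 18 46 2 mZ2 "0 0 0"
theorem mD2 : chkTr (lay 32 22 18) (onesL 46) mZ2 2 12 10 mT2 = true := by decide +kernel
noncomputable def mZ3 : List (List Nat) := by r187_newton 32 22 18 48 3 mQ3 12 10 64
theorem mC3_0 : chkNewton (lay 32 22 18) 48 3 mQ3 mZ3 12 0 9 = true := by decide +kernel
theorem mC3_1 : chkNewton (lay 32 22 18) 48 3 mQ3 mZ3 12 9 2 = true := by decide +kernel
noncomputable def mQ4 : List (List (List Nat)) := mZ3 :: mQ3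
noncomputable def mT3 : Tr := by r187_tr 32 22 18 46 3 mZ3 "0 0 0"
theorem mD3 : chkTr (lay 32 22 18) (onesL 46) mZ3 3 12 10 mT3 = true := by decide +kernel
noncomputable def mZ4 : List (List Nat) := by r187_newton 32 22 18 48 4 mQ4 12 10 64
theorem mC4_0 : chkNewton (lay 32 22 18) 48 4 mQ4 mZ4 12 0 5 = true := by decide +kernel
theorem mC4_1 : chkNewton (lay 32 22 18) 48 4 mQ4 mZ4 12 5 6 = true := by decide +kernel
noncomputable def mQ5 : List (List (List Nat)) := mZ4 :: mQ4
noncomputable def mT4 : Tr := by r187_tr 32 22 18 46 4 mZ4 "0 0 0,1 0 0,2 0 0,3 0 0,4 0 0,6 0 0"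
theorem mD4 : chkTr (lay 32 22 18) (onesL 46) mZ4 4 12 10 mT4 = true := by decide +kernel

end Crest.Agent.R187.Num
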