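import Crest.Agent.R187.C.M0

set_option autoImplicit false
set_option Elab.async false
set_option maxRecDepth 100000

namespace Crest.Agent.R187.Num
open Crest.Agent.R187.Alg Crest.Agent.R187.Tac

noncomputable def mZ5 : List (List Nat) := by r187_newton 32 22 18 46 5 mQ5 12 10 64
theorem mC5_0 : chkNewton (lay 32 22 18) 46 5 mQ5 mZ5 12 0 4 = true := by decide +kernel
theorem mC5_1 : chkNewton (lay 32 22 18) 46 5 mQ5 mZ5 12 4 7 = true := by decide +kernel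
noncomputable def mQ6 : List (List (List Nat)) := mZ5 :: mQ5
noncomputable def mT5 : Tr := by r187_tr 32 22 18 46 5 mZ5 "0 0 0,1 0 0,1 1 0,2 0 0,2 1 0,2 2 0,3 3 0,4 1 0,4 2 0,4 3 0,4 4 0,5 0 0,5 2 0,6 0 0,6 1 0,6 2 0,6 3 0,6 4 0,6 6 0"
theorem mD5 : chkTr (lay 32 22 18) (onesL 46) mZ5 5 12 10 mT5 = true := by decide +kernel
noncomputable def mZ6 : List (List Nat) := by r187_newton 32 22 18 46 6 mQ6 12 10 64
theorem mC6_0 : chkNewton (lay 32 22 18) 46 6 mQ6 mZ6 12 0 3 = true := by decide +kernel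
theorem mC6_1 : chkNewton (lay 32 22 18) 46 6 mQ6 mZ6 12 3 5 = true := by decide +kernel
theorem mC6_2 : chkNewton (lay 32 22 18) 46 6 mQ6 mZ6 12 8 3 = true := by decide +kernel
noncomputable def mQ7 : List (List (List Nat)) := mZ6 :: mQ6
noncomputable def mT6 : Tr := by r187_tr 32 22 18 45 6 mZ6 "0 0 0,1 1 0,1 1 1,2 1 0,2 1 1,2 2 0,2 2 1,2 2 2,3 0 0,3 1 0,3 1 1,3 2 0,3 2 2,3 3 0,3 3 1,3 3 2,3 3 3,4 1 1,4 2 1,4 2 2,4 3 0,4 3 1,4 3 2,4 3 3,4 4 0,4 4 1,4 4 2,4 4 3,4 4 4,5 1 0,5 1 1,5 2 2,5 3 3,5 4 0,5 4 2,5 4 3,5 5 0,5 5 2,6 1 0,6 1 1,6 2 1,6 2 2,6 3 0,6 3 1,6 3 2,6 3 3,6 4 0,6 4 1,6 4 2,6 4 3,6 4 4,6 5 0,6 5 1,6 5 2,6 5 3,6 6 0,6 6 1,6 6 2,6 6 3,6 6 4,6 6 6,7 0 0,7 1 0,7 2 0,7 2 1,7 3 0,7 3 1,7 4 0,8 0 0,8 1 0,8 1 1,8 2 2,8 3 0,8 4 0"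
theorem mD6 : chkTr (lay 32 22 18) (onesL 45) mZ6 6 12 10 mT6 = true := by decide +kernel

end Crest.Agent.R187.Num
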