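import Crest.Agent.R187.C.M1

set_option autoImplicit false
set_option Elab.async false
set_option maxRecDepth 100000

namespace Crest.Agent.R187.Num
open Crest.Agent.R187.Alg Crest.Agent.R187.Tac

noncomputable def mZ7 : List (List Nat) := by r187_newton 32 22 18 45 7 mQ7 12 10 64
theorem mC7_0 : chkNewton (lay 32 22 18) 45 7 mQ7 mZ7 12 0 2 = true := by decide +kernel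
theorem mC7_1 : chkNewton (lay 32 22 18) 45 7 mQ7 mZ7 12 2 3 = true := by decide +kernel
theorem mC7_2 : chkNewton (lay 32 22 18) 45 7 mQ7 mZ7 12 5 6 = true := by decide +kernel
noncomputable def mQ8 : List (List (List Nat)) := mZ7 :: mQ7
noncomputable def mT7 : Tr := by r187_tr 32 22 18 45 7 mZ7 "0 0 0,1 0 0,1 1 0,1 1 1,2 0 0,2 1 0,2 1 1,2 2 0,2 2 1,2 2 2,3 0 0,3 1 0,3 1 1,3 2 0,3 2 1,3 2 2,3 3 0,3 3 1,3 3 2,3 3 3,4 0 0,4 1 0,4 1 1,4 2 0,4 2 1,4 2 2,4 3 0,4 3 1,4 3 2,4 3 3,4 4 0,4 4 1,4 4 2,4 4 3,4 4 4,5 0 0,5 1 0,5 1 1,5 2 0,5 2 1,5 2 2,5 3 0,5 3 1,5 3 2,5 3 3,5 4 0,5 4 1,5 4 2,5 4 3,5 4 4,5 5 0,5 5 1,5 5 2,5 5 3,5 5 4,5 5 5,6 0 0,6 1 0,6 1 1,6 2 0,6 2 1,6 2 2,6 3 0,6 3 1,6 3 2,6 3 3,6 4 0,6 4 1,6 4 2,6 4 3,6 4 4,6 5 0,6 5 1,6 5 2,6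 5 3,6 5 4,6 5 5,6 6 0,6 6 1,6 6 2,6 6 3,6 6 4,6 6 5,7 0 0,7 1 0,7 1 1,7 2 0,7 2 1,7 2 2,7 3 0,7 3 1,7 3 2,7 3 3,7 4 0,7 4 1,7 4 2,7 4 3,7 4 4,7 5 0,7 5 1,7 5 2,7 5 3,7 5 4,7 6 0,7 6 1,7 6 2,7 6 3,7 6 4,7 7 0,7 7 1,7 7 2,8 0 0,8 1 0,8 1 1,8 2 0,8 2 1,8 2 2,8 3 0,8 3 1,8 3 2,8 3 3,8 4 0,8 4 1,8 4 2,8 4 3,8 4 4,8 5 0,8 5 1,8 5 2,8 5 3,8 5 4,8 6 0,8 6 1,8 6 2,8 6 3,8 6 4,8 7 0,8 7 1,8 7 2,8 8 0,8 8 2,9 0 0,9 1 0,9 1 1,9 2 0,9 2 1,9 3 0,9 3 1,9 4 0,9 4 1,9 4 2,9 6 0,10 0 0,10 1 0,10 2 0"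
theorem mD7 : chkTr (lay 32 22 18) (onesL 45) mZ7 7 12 10 mT7 = true := by decide +kernel

end Crest.Agent.R187.Num
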