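import Crest.Agent.R187.C.M3

set_option autoImplicit false
set_option Elab.async false
set_option maxRecDepth 100000

namespace Crest.Agent.R187.Num
open Crest.Agent.R187.Alg Crest.Agent.R187.Tac

noncomputable def mZ9 : List (List Nat) := by r187_newton 32 22 18 42 9 mQ9 12 10 64
theorem mC9_0 : chkNewton (lay 32 22 18) 42 9 mQ9 mZ9 12 0 2 = true := by decide +kernel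
theorem mC9_1 : chkNewton (lay 32 22 18) 42 9 mQ9 mZ9 12 2 2 = true := by decide +kernel
theorem mC9_2 : chkNewton (lay 32 22 18) 42 9 mQ9 mZ9 12 4 3 = true := by decide +kernel
theorem mC9_3 : chkNewton (lay 32 22 18) 42 9 mQ9 mZ9 12 7 4 = true := by decide +kernel
noncomputable def mQ10 : List (List (List Nat)) := mZ9 :: mQ9
noncomputable def mT9 : Tr := by r187_tr 32 22 18 42 9 mZ9 "0 0 0,1 0 0,1 1 0,1 1 1,2 0 0,2 1 0,2 1 1,2 2 0,2 2 1,2 2 2,3 0 0,3 1 0,3 1 1,3 2 0,3 2 1,3 2 2,3 3 0,3 3 1,3 3 2,3 3 3,4 0 0,4 1 0,4 1 1,4 2 0,4 2 1,4 2 2,4 3 0,4 3 1,4 3 2,4 3 3,4 4 0,4 4 1,4 4 2,4 4 3,4 4 4,5 0 0,5 1 0,5 1 1,5 2 0,5 2 1,5 2 2,5 3 0,5 3 1,5 3 2,5 3 3,5 4 0,5 4 1,5 4 2,5 4 3,5 4 4,5 5 0,5 5 1,5 5 2,5 5 3,5 5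 4,5 5 5,6 0 0,6 1 0,6 1 1,6 2 0,6 2 1,6 2 2,6 3 0,6 3 1,6 3 2,6 3 3,6 4 0,6 4 1,6 4 2,6 4 3,6 4 4,6 5 0,6 5 1,6 5 2,6 5 3,6 5 4,6 5 5,6 6 0,6 6 1,6 6 2,6 6 3,6 6 4,6 6 5,6 6 6,7 0 0,7 1 0,7 1 1,7 2 0,7 2 1,7 2 2,7 3 0,7 3 1,7 3 2,7 3 3,7 4 0,7 4 1,7 4 2,7 4 3,7 4 4,7 5 0,7 5 1,7 5 2,7 5 3,7 5 4,7 5 5,7 6 0,7 6 1,7 6 2,7 6 3,7 6 4,7 6 5,7 6 6,7 7 0,7 7 1,7 7 2,7 7 3,7 7 4,7 7 5,7 7 6,7 7 7,8 0 0,8 1 0,8 1 1,8 2 0,8 2 1,8 2 2,8 3 0,8 3 1,8 3 2,8 3 3,8 4 0,8 4 1,8 4 2,8 4 3,8 4 4,8 5 0,8 5 1,8 5 2,8 5 3,8 5 4,8 5 5,8 6 0,8 6 1,8 6 2,8 6 3,8 6 4,8 6 5,8 6 6,8 7 0,8 7 1,8 7 2,8 7 3,8 7 4,8 7 5,8 7 6,8 7 7,8 8 0,8 8 1,8 8 2,8 8 3,8 8 4,8 8 5,8 8 6,8 8 7,9 0 0,9 1 0,9 1 1,9 2 0,9 2 1,9 2 2,9 3 0,9 3 1,9 3 2,9 3 3,9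 4 0,9 4 1,9 4 2,9 4 3,9 4 4,9 5 0,9 5 1,9 5 2,9 5 3,9 5 4,9 5 5,9 6 0,9 6 1,9 6 2,9 6 3,9 6 4,9 6 5,9 6 6,9 7 0,9 7 1,9 7 2,9 7 3,9 7 4,9 7 5,9 7 6,9 8 0,9 8 1,9 8 2,9 8 3,9 8 4,9 8 5,9 9 0,9 9 1,9 9 2,9 9 3,9 9 4,9 9 5,10 0 0,10 1 0,10 1 1,10 2 0,10 2 1,10 2 2,10 3 0,10 3 1,10 3 2,10 3 3,10 4 0,10 4 1,10 4 2,10 4 3,10 4 4,10 5 0,10 5 1,10 5 2,10 5 3,10 5 4,10 5 5,10 6 0,10 6 1,10 6 2,10 6 3,10 6 4,10 6 5,10 6 6,10 7 0,10 7 1,10 7 2,10 7 3,10 7 4,10 7 5,10 8 0,10 8 1,10 8 2,10 8 3,10 8 4,10 8 5,10 9 0,10 9 1,10 9 2,10 9 3,10 9 4,10 9 5,10 10 0,10 10 1,10 10 2,10 10 3,10 10 4,11 0 0,11 1 0,11 1 1,11 2 0,11 2 1,11 2 2,11 3 0,11 3 1,11 3 2,11 3 3,11 4 0,11 4 1,11 4 2,11 4 3,11 4 4,11 5 0,11 5 1,11 5 2,11 5 3,11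 5 4,11 5 5,11 6 0,11 6 1,11 6 2,11 6 3,11 6 4,11 7 0,11 7 1,11 7 2,11 7 3,11 8 0,11 8 2,11 9 0,11 9 1,11 10 0,12 0 0,12 1 0,12 1 1,12 2 0,12 2 1,12 2 2,12 3 0,12 3 1,12 3 2,12 3 3,12 4 0,12 4 1,12 4 2,12 5 0,12 5 1,12 6 0,13 0 0,13 1 0,13 1 1,13 2 0"
theorem mD9 : chkTr (lay 32 22 18) (onesL 42) mZ9 9 12 10 mT9 = true := by decide +kernel

end Crest.Agent.R187.Num
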