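import Crest.Agent.R187.C.M6

set_option autoImplicit false
set_option Elab.async false
set_option maxRecDepth 100000

namespace Crest.Agent.R187.Num
open Crest.Agent.R187.Alg Crest.Agent.R187.Tac

noncomputable def mZ12 : List (List Nat) := by r187_newton 32 22 18 41 12 mQ12 12 5 64
theorem mC12_0 : chkNewton (lay 32 22 18) 41 12 mQ12 mZ12 12 0 1 = true := by decide +kernel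
theorem mC12_1 : chkNewton (lay 32 22 18) 41 12 mQ12 mZ12 12 1 1 = true := by decide +kernel
theorem mC12_2 : chkNewton (lay 32 22 18) 41 12 mQ12 mZ12 12 2 1 = true := by decide +kernel
theorem mC12_3 : chkNewton (lay 32 22 18) 41 12 mQ12 mZ12 12 3 2 = true := by decide +kernel
theorem mC12_4 : chkNewton (lay 32 22 18) 41 12 mQ12 mZ12 12 5 1 = true := by decide +kernel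
noncomputable def mQ13 : List (List (List Nat)) := mZ12 :: mQ12
noncomputable def mT12 : Tr := by r187_tr 32 22 18 39 12 mZ12 "1 1 1,2 2 2,3 2 0,3 2 1,3 2 2,3 3 0,3 3 1,3 3 2,3 3 3,4 1 1,4 2 0,4 2 1,4 2 2,4 3 0,4 3 1,4 3 2,4 3 3,4 4 0,4 4 1,4 4 2,4 4 3,4 4 4,5 1 1,5 2 0,5 2 1,5 2 2,5 3 0,5 3 1,5 3 2,5 3 3,5 4 0,5 4 1,5 4 2,5 4 3,5 4 4,5 5 0,5 5 1,5 5 2,5 5 3,5 5 4,5 5 5,6 1 1,6 2 0,6 2 1,6 2 2,6 3 0,6 3 1,6 3 2,6 3 3,6 4 0,6 4 1,6 4 2,6 4 3,6 4 4,6 5 0,6 5 1,6 5 2,6 5 3,6 5 4,6 5 5,6 6 0,6 6 1,6 6 2,6 6 3,6 6 4,6 6 5,7 0 0,7 1 0,7 1 1,7 2 0,7 2 1,7 2 2,7 3 0,7 3 1,7 3 2,7 3 3,7 4 0,7 4 1,7 4 2,7 4 3,7 4 4,7 5 0,7 5 1,7 5 2,7 5 3,7 5 4,7 5 5,7 6 0,7 6 1,7 6 2,7 6 3,7 6 4,7 6 5,7 7 0,7 7 1,7 7 2,7 7 3,7 7 4,7 7 5,8 1 1,8 2 0,8 2 1,8 2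 2,8 3 0,8 3 1,8 3 2,8 3 3,8 4 0,8 4 1,8 4 2,8 4 3,8 4 4,8 5 0,8 5 1,8 5 2,8 5 3,8 5 4,8 5 5,8 6 0,8 6 1,8 6 2,8 6 3,8 6 4,8 6 5,8 7 0,8 7 1,8 7 2,8 7 3,8 7 4,8 7 5,8 8 0,8 8 1,8 8 2,8 8 3,8 8 4,8 8 5,9 1 0,9 1 1,9 2 0,9 2 1,9 2 2,9 3 0,9 3 1,9 3 2,9 3 3,9 4 0,9 4 1,9 4 2,9 4 3,9 4 4,9 5 0,9 5 1,9 5 2,9 5 3,9 5 4,9 5 5,9 6 0,9 6 1,9 6 2,9 6 3,9 6 4,9 6 5,9 7 0,9 7 1,9 7 2,9 7 3,9 7 4,9 7 5,9 8 0,9 8 1,9 8 2,9 8 3,9 8 4,9 8 5,9 9 0,9 9 1,9 9 2,9 9 3,9 9 4,9 9 5,10 1 1,10 2 0,10 2 1,10 2 2,10 3 0,10 3 1,10 3 2,10 3 3,10 4 0,10 4 1,10 4 2,10 4 3,10 4 4,10 5 0,10 5 1,10 5 2,10 5 3,10 5 4,10 5 5,10 6 0,10 6 1,10 6 2,10 6 3,10 6 4,10 6 5,10 7 0,10 7 1,10 7 2,10 7 3,10 7 4,10 7 5,10 8 0,10 8 1,10 8 2,10 8 3,10 8 4,10 8 5,10 9 0,10 9 1,10 9 2,10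 9 3,10 9 4,10 9 5,10 10 0,10 10 1,10 10 2,10 10 3,10 10 4,10 10 5,11 2 0,11 3 0,11 4 0,11 4 1,11 5 0,11 5 1,11 5 2,11 5 3,11 5 4,11 5 5,11 6 0,11 6 1,11 6 2,11 6 3,11 6 4,11 6 5,11 7 0,11 7 1,11 7 2,11 7 3,11 7 4,11 7 5,11 8 0,11 8 1,11 8 2,11 8 3,11 8 4,11 8 5,11 9 0,11 9 1,11 9 2,11 9 3,11 9 4,11 9 5,11 10 0,11 10 2,11 10 3,11 10 4,11 10 5,11 11 0,11 11 1,11 11 3,11 11 4,11 11 5,12 0 0,12 5 0,12 6 0,12 6 1,12 7 0,12 7 1,12 7 2,12 7 3,12 7 4,12 7 5,12 8 0,12 8 1,12 8 2,12 8 3,12 8 4,12 8 5,12 9 0,12 9 2,12 9 3,12 9 4,12 9 5,12 10 0,12 10 3,12 10 4,12 10 5,12 11 0,12 11 3,12 11 4,12 11 5,13 7 0,13 7 1,13 8 0,13 8 2,13 8 3,13 8 4,13 8 5,13 9 3,13 9 4,13 9 5,13 10 5,13 11 5,14 9 3,14 9 4,14 9 5,14 10 4,14 10 5,14 11 5,15 9 3,15 11 0,15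 11 1"
theorem mD12 : chkTr (lay 32 22 18) (onesL 39) mZ12 12 12 5 mT12 = true := by decide +kernel

end Crest.Agent.R187.Num
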