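import Crest.Agent.R187.Tac

set_option autoImplicit false
set_option Elab.async false
set_option maxRecDepth 100000

namespace Crest.Agent.R187.Num
open Crest.Agent.R187.Alg Crest.Agent.R187.Tac

noncomputable def tZ0 : List (List Nat) := by r187_del 77 10 6 3 2 77
theorem tC0 : eqLL tZ0 (delTab (lay 77 10 6) 3 2) = true := by decide +kernel
noncomputable def tQ1 : List (List (List Nat)) := [tZ0]
noncomputable def tZ1 : List (List Nat) := by r187_newton 77 10 6 49 1 tQ1 3 2 77
theorem tC1_0 : chkNewton (lay 77 10 6) 49 1 tQ1 tZ1 3 0 3 = true := by decide +kernel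
noncomputable def tQ2 : List (List (List Nat)) := tZ1 :: tQ1
noncomputable def tZ2 : List (List Nat) := by r187_newton 77 10 6 49 2 tQ2 3 2 77
theorem tC2_0 : chkNewton (lay 77 10 6) 49 2 tQ2 tZ2 3 0 3 = true := by decide +kernel
noncomputable def tQ3 : List (List (List Nat)) := tZ2 :: tQ2
noncomputable def tZ3 : List (List Nat) := by r187_newton 77 10 6 48 3 tQ3 3 2 77
theorem tC3_0 : chkNewton (lay 77 10 6) 48 3 tQ3 tZ3 3 0 3 = true := by decide +kernel
noncomputable def tQ4 : List (List (List Nat)) := tZ3 :: tQ3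
noncomputable def tZ4 : List (List Nat) := by r187_newton 77 10 6 48 4 tQ4 3 2 77
theorem tC4_0 : chkNewton (lay 77 10 6) 48 4 tQ4 tZ4 3 0 3 = true := by decide +kernel
noncomputable def tQ5 : List (List (List Nat)) := tZ4 :: tQ4
noncomputable def tZ5 : List (List Nat) := by r187_newton 77 10 6 46 5 tQ5 3 2 77
theorem tC5_0 : chkNewton (lay 77 10 6) 46 5 tQ5 tZ5 3 0 3 = true := by decide +kernel
noncomputable def tQ6 : List (List (List Nat)) := tZ5 :: tQ5
noncomputable def tZ6 : List (List Nat) := by r187_newton 77 10 6 46 6 tQ6 3 2 77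
theorem tC6_0 : chkNewton (lay 77 10 6) 46 6 tQ6 tZ6 3 0 3 = true := by decide +kernel
noncomputable def tQ7 : List (List (List Nat)) := tZ6 :: tQ6
noncomputable def tZ7 : List (List Nat) := by r187_newton 77 10 6 45 7 tQ7 3 2 77
theorem tC7_0 : chkNewton (lay 77 10 6) 45 7 tQ7 tZ7 3 0 3 = true := by decide +kernel
noncomputable def tQ8 : List (List (List Nat)) := tZ7 :: tQ7
noncomputable def tZ8 : List (List Nat) := by r187_newton 77 10 6 45 8 tQ8 3 2 77
theorem tC8_0 : chkNewton (lay 77 10 6) 45 8 tQ8 tZ8 3 0 3 = true := by decide +kernel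
noncomputable def tQ9 : List (List (List Nat)) := tZ8 :: tQ8
noncomputable def tZ9 : List (List Nat) := by r187_newton 77 10 6 42 9 tQ9 3 2 77
theorem tC9_0 : chkNewton (lay 77 10 6) 42 9 tQ9 tZ9 3 0 3 = true := by decide +kernel
noncomputable def tQ10 : List (List (List Nat)) := tZ9 :: tQ9
noncomputable def tZ10 : List (List Nat) := by r187_newton 77 10 6 42 10 tQ10 3 2 77
theorem tC10_0 : chkNewton (lay 77 10 6) 42 10 tQ10 tZ10 3 0 3 = true := by decide +kernel
noncomputable def tQ11 : List (List (List Nat)) := tZ10 :: tQ10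
noncomputable def tZ11 : List (List Nat) := by r187_newton 77 10 6 41 11 tQ11 3 2 77
theorem tC11_0 : chkNewton (lay 77 10 6) 41 11 tQ11 tZ11 3 0 3 = true := by decide +kernel
noncomputable def tQ12 : List (List (List Nat)) := tZ11 :: tQ11
noncomputable def tT11 : Tr := by r187_tr 77 10 6 41 11 tZ11 "2 2 0"
theorem tD11 : chkTr (lay 77 10 6) (onesL 41) tZ11 11 3 2 tT11 = true := by decide +kernel
noncomputable def tZ12 : List (List Nat) := by r187_newton 77 10 6 41 12 tQ12 3 2 77
theorem tC12_0 : chkNewton (lay 77 10 6) 41 12 tQ12 tZ12 3 0 3 = true := by decide +kernel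
noncomputable def tQ13 : List (List (List Nat)) := tZ12 :: tQ12
noncomputable def tT12 : Tr := by r187_tr 77 10 6 39 12 tZ12 "2 1 1,3 2 1,3 2 2"
theorem tD12 : chkTr (lay 77 10 6) (onesL 39) tZ12 12 3 2 tT12 = true := by decide +kernel
noncomputable def tZ13 : List (List Nat) := by r187_newton 77 10 6 39 13 tQ13 3 2 77
theorem tC13_0 : chkNewton (lay 77 10 6) 39 13 tQ13 tZ13 3 0 3 = true := by decide +kernel
noncomputable def tQ14 : List (List (List Nat)) := tZ13 :: tQ13
noncomputable def tT13 : Tr := by r187_tr 77 10 6 39 13 tZ13 "1 1 1,2 2 1,2 2 2,3 1 1,3 2 0"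
theorem tD13 : chkTr (lay 77 10 6) (onesL 39) tZ13 13 3 2 tT13 = true := by decide +kernel
noncomputable def tZ14 : List (List Nat) := by r187_newton 77 10 6 39 14 tQ14 3 2 77
theorem tC14_0 : chkNewton (lay 77 10 6) 39 14 tQ14 tZ14 3 0 3 = true := by decide +kernel
noncomputable def tQ15 : List (List (List Nat)) := tZ14 :: tQ14
noncomputable def tT14 : Tr := by r187_tr 77 10 6 38 14 tZ14 "1 1 1,2 2 0,2 2 2,3 1 1,3 2 0,3 2 1,3 2 2"
theorem tD14 : chkTr (lay 77 10 6) (onesL 38) tZ14 14 3 2 tT14 = true := by decide +kernel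

end Crest.Agent.R187.Num
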