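import Crest.Agent.R187.C.T0

set_option autoImplicit false
set_option Elab.async false
set_option maxRecDepth 100000

namespace Crest.Agent.R187.Num
open Crest.Agent.R187.Alg Crest.Agent.R187.Tac

noncomputable def tZ15 : List (List Nat) := by r187_newton 77 10 6 38 15 tQ15 3 2 77
theorem tC15_0 : chkNewton (lay 77 10 6) 38 15 tQ15 tZ15 3 0 3 = true := by decide +kernel
noncomputable def tQ16 : List (List (List Nat)) := tZ15 :: tQ15
noncomputable def tT15 : Tr := by r187_tr 77 10 6 38 15 tZ15 "1 1 1,2 1 1,2 2 0,2 2 1,3 1 1,3 2 0,3 2 1,3 2 2"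
theorem tD15 : chkTr (lay 77 10 6) (onesL 38) tZ15 15 3 2 tT15 = true := by decide +kernel
noncomputable def tZ16 : List (List Nat) := by r187_newton 77 10 6 38 16 tQ16 3 2 77
theorem tC16_0 : chkNewton (lay 77 10 6) 38 16 tQ16 tZ16 3 0 3 = true := by decide +kernel
noncomputable def tQ17 : List (List (List Nat)) := tZ16 :: tQ16
noncomputable def tT16 : Tr := by r187_tr 77 10 6 34 16 tZ16 "0 0 0,1 0 0,1 1 0,1 1 1,2 2 0,2 2 1,2 2 2,3 1 1,3 2 0,3 2 1,3 2 2"
theorem tD16 : chkTr (lay 77 10 6) (onesL 34) tZ16 16 3 2 tT16 = true := by decide +kernel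
noncomputable def tZ17 : List (List Nat) := by r187_newton 77 10 6 34 17 tQ17 3 2 77
theorem tC17_0 : chkNewton (lay 77 10 6) 34 17 tQ17 tZ17 3 0 3 = true := by decide +kernel
noncomputable def tQ18 : List (List (List Nat)) := tZ17 :: tQ17
noncomputable def tT17 : Tr := by r187_tr 77 10 6 34 17 tZ17 "0 0 0,1 0 0,1 1 0,1 1 1,2 1 1,2 2 0,2 2 1,2 2 2,3 1 1,3 2 0,3 2 1,3 2 2"
theorem tD17 : chkTr (lay 77 10 6) (onesL 34) tZ17 17 3 2 tT17 = true := by decide +kernel
noncomputable def tZ18 : List (List Nat) := by r187_newton 77 10 6 34 18 tQ18 3 2 77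
theorem tC18_0 : chkNewton (lay 77 10 6) 34 18 tQ18 tZ18 3 0 3 = true := by decide +kernel
noncomputable def tQ19 : List (List (List Nat)) := tZ18 :: tQ18
noncomputable def tT18 : Tr := by r187_tr 77 10 6 33 18 tZ18 "0 0 0,1 0 0,1 1 0,2 0 0,2 1 1,2 2 0,2 2 1,2 2 2,3 2 0,3 2 1,3 2 2"
theorem tD18 : chkTr (lay 77 10 6) (onesL 33) tZ18 18 3 2 tT18 = true := by decide +kernel
noncomputable def tZ19 : List (List Nat) := by r187_newton 77 10 6 33 19 tQ19 3 2 77
theorem tC19_0 : chkNewton (lay 77 10 6) 33 19 tQ19 tZ19 3 0 3 = true := by decide +kernel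
noncomputable def tQ20 : List (List (List Nat)) := tZ19 :: tQ19
noncomputable def tT19 : Tr := by r187_tr 77 10 6 33 19 tZ19 "0 0 0,1 0 0,1 1 0,1 1 1,2 1 1,2 2 0,2 2 1,2 2 2,3 1 0,3 1 1,3 2 0,3 2 1,3 2 2"
theorem tD19 : chkTr (lay 77 10 6) (onesL 33) tZ19 19 3 2 tT19 = true := by decide +kernel
noncomputable def tZ20 : List (List Nat) := by r187_newton 77 10 6 33 20 tQ20 3 2 77
theorem tC20_0 : chkNewton (lay 77 10 6) 33 20 tQ20 tZ20 3 0 3 = true := by decide +kernel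
noncomputable def tQ21 : List (List (List Nat)) := tZ20 :: tQ20
noncomputable def tT20 : Tr := by r187_tr 77 10 6 31 20 tZ20 "0 0 0,1 0 0,1 1 0,1 1 1,2 1 0,2 2 0,2 2 1,2 2 2,3 1 1,3 2 0,3 2 1"
theorem tD20 : chkTr (lay 77 10 6) (onesL 31) tZ20 20 3 2 tT20 = true := by decide +kernel

end Crest.Agent.R187.Num
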