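import Crest.Agent.R187.C.T1

set_option autoImplicit false
set_option Elab.async false
set_option maxRecDepth 100000

namespace Crest.Agent.R187.Num
open Crest.Agent.R187.Alg Crest.Agent.R187.Tac

noncomputable def tZ21 : List (List Nat) := by r187_newton 77 10 6 31 21 tQ21 3 2 77
theorem tC21_0 : chkNewton (lay 77 10 6) 31 21 tQ21 tZ21 3 0 3 = true := by decide +kernel
noncomputable def tQ22 : List (List (List Nat)) := tZ21 :: tQ21
noncomputable def tT21 : Tr := by r187_tr 77 10 6 31 21 tZ21 "0 0 0,1 0 0,1 1 0,1 1 1,2 1 1,2 2 1,2 2 2"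
theorem tD21 : chkTr (lay 77 10 6) (onesL 31) tZ21 21 3 2 tT21 = true := by decide +kernel
noncomputable def tZ22 : List (List Nat) := by r187_newton 77 10 6 31 22 tQ22 3 2 77
theorem tC22_0 : chkNewton (lay 77 10 6) 31 22 tQ22 tZ22 3 0 3 = true := by decide +kernel
noncomputable def tQ23 : List (List (List Nat)) := tZ22 :: tQ22
noncomputable def tT22 : Tr := by r187_tr 77 10 6 30 22 tZ22 "0 0 0,1 0 0,1 1 0,1 1 1,2 0 0"
theorem tD22 : chkTr (lay 77 10 6) (onesL 30) tZ22 22 3 2 tT22 = true := by decide +kernel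
noncomputable def tZ23 : List (List Nat) := by r187_newton 77 10 6 30 23 tQ23 3 2 77
theorem tC23_0 : chkNewton (lay 77 10 6) 30 23 tQ23 tZ23 3 0 3 = true := by decide +kernel
noncomputable def tQ24 : List (List (List Nat)) := tZ23 :: tQ23
noncomputable def tT23 : Tr := by r187_tr 77 10 6 30 23 tZ23 "0 0 0,1 0 0,1 1 0,1 1 1,2 0 0,2 1 1,3 2 0"
theorem tD23 : chkTr (lay 77 10 6) (onesL 30) tZ23 23 3 2 tT23 = true := by decide +kernel
noncomputable def tZ24 : List (List Nat) := by r187_newton 77 10 6 30 24 tQ24 3 2 77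
theorem tC24_0 : chkNewton (lay 77 10 6) 30 24 tQ24 tZ24 3 0 3 = true := by decide +kernel
noncomputable def tT24 : Tr := by r187_tr 77 10 6 27 24 tZ24 "0 0 0,1 0 0,1 1 0,1 1 1,2 0 0,2 1 0,2 1 1,2 2 0,2 2 1,3 0 0,3 1 1,3 2 0,3 2 1,3 2 2"
theorem tD24 : chkTr (lay 77 10 6) (onesL 27) tZ24 24 3 2 tT24 = true := by decide +kernel

end Crest.Agent.R187.Num
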